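import Crest.Agent.N207.Tens

/-!
# Row 207 (helper45): the multilinear evaluation `evT`
-/

set_option autoImplicit false

open scoped ContDiff Topology
open Finset Function Filter
open Crest.GeometryTopology.CoordMetric Crest.GeometryTopology.ChartCurvature
open Crest.Agent.R202.Tens Crest.Agent.R247.Bo84

noncomputable section

namespace Crest.Agent.N207.AI

variable {n k : ℕ}

/-- standard basis vectors -/
abbrev eb (i : Fin n) : En n := EuclideanSpace.single i 1

lemma sum_update_swap {ι κ R : Type*} [Fintype ι] [Fintype κ] [DecidableEq κ] [AddCommMonoid R]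
    (s : κ) (F : (κ → ι) → ι → R) :
    ∑ J : κ → ι, ∑ m, F J m = ∑ J : κ → ι, ∑ m, F (update J s m) (J s) := by
  rw [← Fintype.sum_prod_type', ← Fintype.sum_prod_type']
  let φ : (κ → ι) × ι → (κ → ι) × ι := fun x => (update x.1 s x.2, x.1 s)
  have hφ : Function.Involutive φ := by
    rintro ⟨J, m⟩
    simp [φ]
  exact (Equiv.sum_comp (hφ.toPerm φ) fun x : (κ → ι) × ι => F x.1 x.2).symm

lemma sum_cons {ι R : Type*} [Fintype ι] [AddCommMonoid R] (F : (Fin (k + 1) → ι) → R) :
    ∑ J, F J = ∑ a, ∑ I : Fin k → ι, F (Fin.cons a I) := by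
  rw [← Fintype.sum_prod_type', ← (Fin.consEquiv fun _ : Fin (k + 1) => ι).sum_comp]
  rfl

lemma prod_update (v : Fin k → En n) (s : Fin k) (w : En n) (J : Fin k → Fin n) :
    ∏ s', (update v s w s') (J s') = w (J s) * ∏ s' ∈ univ.erase s, v s' (J s') := by
  rw [← Finset.mul_prod_erase univ _ (mem_univ s), update_self]
  congr 1
  exact prod_congr rfl fun s' hs' => by rw [update_of_ne (ne_of_mem_erase hs')]

lemma evT_update (A : Arr n k) (v : Fin k → En n) (s : Fin k) (w : En n) :
    evT A (update v s w) = ∑ J, w (J s) * ((∏ s' ∈ univ.erase s, v s' (J s')) * A J) := by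
  simp only [evT, prod_update, mul_assoc]

lemma evT_update_add (A : Arr n k) (v : Fin k → En n) (s : Fin k) (w w' : En n) :
    evT A (update v s (w + w')) = evT A (update v s w) + evT A (update v s w') := by
  simp only [evT_update, PiLp.add_apply, add_mul, sum_add_distrib]


lemma evT_update_smul (A : Arr n k) (v : Fin k → En n) (s : Fin k) (c : ℝ) (w : En n) :
    evT A (update v s (c • w)) = c * evT A (update v s w) := by
  simp only [evT_update, PiLp.smul_apply, smul_eq_mul, mul_sum, mul_assoc]

lemma evT_update_zero (A : Arr n k) (v : Fin k → En n) (s : Fin k) :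
    evT A (update v s 0) = 0 := by
  simp [evT_update]

lemma evT_update_sum {ι : Type*} (t : Finset ι) (A : Arr n k) (v : Fin k → En n) (s : Fin k)
    (c : ι → ℝ) (w : ι → En n) :
    evT A (update v s (∑ a ∈ t, c a • w a)) = ∑ a ∈ t, c a * evT A (update v s (w a)) := by
  classical
  induction t using Finset.induction_on with
  | empty => simp [evT_update_zero]
  | insert a t ha ih => rw [sum_insert ha, sum_insert ha, evT_update_add, evT_update_smul, ih]

lemma evT_add (A B : Arr n k) (v : Fin k → En n) :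
    evT (fun J => A J + B J) v = evT A v + evT B v := by
  simp only [evT, mul_add, sum_add_distrib]

lemma evT_sub (A B : Arr n k) (v : Fin k → En n) :
    evT (fun J => A J - B J) v = evT A v - evT B v := by
  simp only [evT, mul_sub, sum_sub_distrib]

lemma evT_mul (c : ℝ) (A : Arr n k) (v : Fin k → En n) :
    evT (fun J => c * A J) v = c * evT A v := by
  simp only [evT, mul_sum]
  exact sum_congr rfl fun J _ => by ring

lemma evT_sum {ι : Type*} (t : Finset ι) (A : ι → Arr n k) (v : Fin k → En n) :
    evT (fun J => ∑ a ∈ t, A a J) v = ∑ a ∈ t, evT (A a) v := by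
  simp only [evT, mul_sum]
  rw [sum_comm]

lemma evT_single (A : Arr n k) (I : Fin k → Fin n) : evT A (fun s => eb (I s)) = A I := by
  rw [evT, sum_eq_single I]
  · simp
  · intro J _ hJ
    obtain ⟨s, hs⟩ := Function.ne_iff.1 hJ
    rw [prod_eq_zero (mem_univ s), zero_mul]
    simp [hs]
  · simp

lemma evT_zero_rank (A : Arr n 0) (v : Fin 0 → En n) : evT A v = A ![] := by
  rw [evT, Fintype.sum_unique]
  simp only [univ_eq_empty, prod_empty, one_mul]
  rfl

/-- multilinear expansion -/
lemma evT_expand {ι : Type*} [Fintype ι] (A : Arr n k) (c : Fin k → ι → ℝ) (e : ι → En n) :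
    evT A (fun s => ∑ a, c s a • e a) =
      ∑ I : Fin k → ι, (∏ s, c s (I s)) * evT A fun s => e (I s) := by
  classical
  have h : ∀ J : Fin k → Fin n, ∏ s, (∑ a, c s a • e a : En n) (J s) =
      ∑ I : Fin k → ι, (∏ s, c s (I s)) * ∏ s, e (I s) (J s) := by
    intro J
    have h1 : ∀ s, (∑ a, c s a • e a : En n) (J s) = ∑ a, c s a * e a (J s) := by
      intro s
      rw [WithLp.ofLp_sum, Finset.sum_apply]
      rfl
    simp only [h1]
    rw [Finset.prod_univ_sum, Fintype.piFinset_univ]
    exact sum_congr rfl fun I _ => prod_mul_distrib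
  simp only [evT, h, sum_mul, mul_sum]
  rw [sum_comm]
  exact sum_congr rfl fun I _ => sum_congr rfl fun J _ => by ring

lemma evT_map (L : En n →L[ℝ] En n) (A : Arr n k) (v : Fin k → En n) :
    evT (fun I => evT A fun s => L (eb (I s))) v = evT A fun s => L (v s) := by
  have h : (fun s => L (v s)) = fun s => ∑ a, v s a • L (eb a) := by
    funext s
    conv_lhs => rw [eq_sum_single (v s)]
    simp only [map_sum, map_smul]
  rw [h, evT_expand]
  rfl

lemma evT_cons (A : Arr n (k + 1)) (X : En n) (v : Fin k → En n) :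
    evT A (Fin.cons X v) = ∑ a, X a * evT (fun J => A (Fin.cons a J)) v := by
  rw [evT, sum_cons]
  refine sum_congr rfl fun a _ => ?_
  rw [evT, mul_sum]
  refine sum_congr rfl fun J _ => ?_
  rw [Fin.prod_univ_succ]
  simp only [Fin.cons_zero, Fin.cons_succ]
  ring

lemma evT_one (A : Arr n 1) (v : Fin 1 → En n) : evT A v = ∑ a, v 0 a * A ![a] := by
  have hv : v = Fin.cons (v 0) ![] := by
    funext s; fin_cases s; rfl
  rw [hv, evT_cons]
  simp only [evT_zero_rank, Fin.cons_zero]
  rfl

lemma evT_two (A : Arr n 2) (v : Fin 2 → En n) :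
    evT A v = ∑ a, ∑ b, v 0 a * v 1 b * A ![a, b] := by
  have hv : v = Fin.cons (v 0) ![v 1] := by
    funext s; fin_cases s <;> rfl
  rw [hv, evT_cons]
  simp only [evT_one, mul_sum, Fin.cons_zero]
  refine sum_congr rfl fun a _ => sum_congr rfl fun b _ => ?_
  rw [← mul_assoc]
  rfl

lemma evT_four (A : Arr n 4) (v : Fin 4 → En n) :
    evT A v = ∑ a, ∑ b, ∑ c, ∑ d, v 0 a * v 1 b * v 2 c * v 3 d * A ![a, b, c, d] := by
  have hv : v = Fin.cons (v 0) (Fin.cons (v 1) ![v 2, v 3]) := by
    funext s; fin_cases s <;> rfl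
  rw [hv, evT_cons]
  simp only [evT_cons, evT_two, mul_sum, Fin.cons_zero]
  refine sum_congr rfl fun a _ => sum_congr rfl fun b _ => sum_congr rfl fun c _ =>
    sum_congr rfl fun d _ => ?_
  simp only [← mul_assoc]
  rfl

/-- an endomorphism acting in the slot `s` -/
lemma evT_slot (A : Arr n k) (v : Fin k → En n) (s : Fin k) (B : Fin n → Fin n → ℝ) :
    evT (fun J => ∑ m, B m (J s) * A (update J s m)) v =
      evT A (update v s (WithLp.toLp 2 fun m => ∑ b, B m b * v s b)) := by
  rw [evT_update, evT]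
  simp only [mul_sum, sum_mul]
  rw [sum_update_swap s]
  refine sum_congr rfl fun J _ => sum_congr rfl fun m _ => ?_
  have h1 : ∏ s', v s' (update J s m s') = v s m * ∏ s' ∈ univ.erase s, v s' (J s') := by
    rw [← Finset.mul_prod_erase univ _ (mem_univ s), update_self]
    congr 1
    exact prod_congr rfl fun s' hs' => by rw [update_of_ne (ne_of_mem_erase hs')]
  rw [h1, update_self, update_idem, update_eq_self]
  ring

/-- the covariant derivative, evaluated -/
lemma evT_cov (G : MetricField n) (T : Tn n k) (y X : En n) (v : Fin k → En n) :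
    evT (cov G T y) (Fin.cons X v) = evT (fun J => fderiv ℝ (fun z => T z J) y X) v -
      ∑ s, evT (T y) (update v s (Gam G y X (v s))) := by
  rw [evT_cons]
  have h1 : ∀ a, evT (fun J => cov G T y (Fin.cons a J)) v =
      evT (fun J => pderiv a (fun z => T z J) y) v -
        ∑ s, evT (fun J => ∑ m, christoffel G y m a (J s) * T y (update J s m)) v := by
    intro a
    rw [← evT_sum, ← evT_sub]
    rfl
  simp only [h1, mul_sub, sum_sub_distrib]
  congr 1
  · simp only [fderiv_eq_sum, evT_sum, evT_mul]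
  · simp only [mul_sum]
    rw [sum_comm]
    refine sum_congr rfl fun s _ => ?_
    have h2 := fun a => evT_slot (T y) v s fun m b => christoffel G y m a b
    simp only [h2]
    rw [← evT_update_sum]
    congr 2
    ext m
    rw [Gam_apply, WithLp.ofLp_sum, Finset.sum_apply]
    refine sum_congr rfl fun a _ => ?_
    simp only [PiLp.smul_apply, smul_eq_mul, mul_sum]
    exact sum_congr rfl fun b _ => by ring

section Leibniz

variable {E : Type*} [NormedAddCommGroup E] [NormedSpace ℝ E]



lemma contDiffOn_apply {m : WithTop ℕ∞} {v : E → En n} {U : Set E} (hv : ContDiffOn ℝ m v U)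
    (a : Fin n) : ContDiffOn ℝ m (fun q => v q a) U :=
  (EuclideanSpace.proj a : En n →L[ℝ] ℝ).contDiff.comp_contDiffOn hv



lemma contDiffOn_evT {m : WithTop ℕ∞} {A : E → Arr n k} {v : E → Fin k → En n} {U : Set E}
    (hA : ∀ J, ContDiffOn ℝ m (fun q => A q J) U)
    (hv : ∀ s, ContDiffOn ℝ m (fun q => v q s) U) :
    ContDiffOn ℝ m (fun q => evT (A q) (v q)) U := by
  unfold evT
  refine ContDiffOn.sum fun J _ => ContDiffOn.mul ?_ (hA J)
  exact contDiffOn_prod fun s _ => contDiffOn_apply (hv s) _

/-- **Leibniz rule** for the evaluation -/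
lemma fderiv_evT {A : E → Arr n k} {v : E → Fin k → En n} {p : E}
    (hA : ∀ J, DifferentiableAt ℝ (fun q => A q J) p)
    (hv : ∀ s, DifferentiableAt ℝ (fun q => v q s) p) (X : E) :
    fderiv ℝ (fun q => evT (A q) (v q)) p X =
      evT (fun J => fderiv ℝ (fun q => A q J) p X) (v p) +
        ∑ s, evT (A p) (update (v p) s (fderiv ℝ (fun q => v q s) p X)) := by
  have h1 : ∀ s a, HasFDerivAt (fun q => v q s a)
      ((EuclideanSpace.proj a : En n →L[ℝ] ℝ).comp (fderiv ℝ (fun q => v q s) p)) p := fun s a =>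
    (EuclideanSpace.proj a : En n →L[ℝ] ℝ).hasFDerivAt.comp p (hv s).hasFDerivAt
  have h2 := HasFDerivAt.fun_sum (u := (univ : Finset (Fin k → Fin n))) fun J _ =>
    (HasFDerivAt.finsetProd (u := (univ : Finset (Fin k))) fun s _ => h1 s (J s)).fun_mul
      (hA J).hasFDerivAt
  have h3 := h2.fderiv
  unfold evT
  rw [h3]
  simp only [_root_.sum_apply, _root_.add_apply,
    _root_.smul_apply, smul_eq_mul, ContinuousLinearMap.comp_apply, prj_apply,
    sum_add_distrib, prod_update, mul_sum]
  congr 1
  rw [sum_comm]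
  exact sum_congr rfl fun J _ => sum_congr rfl fun s _ => by ring

/-- **Leibniz rule along a map** `c`, with the covariant derivatives of the vector fields -/
lemma fderiv_evT_cov (G : MetricField n) {T : Tn n k} {c : E → En n} {v : E → Fin k → En n}
    {p : E} (hT : ∀ J, DifferentiableAt ℝ (fun z => T z J) (c p)) (hc : DifferentiableAt ℝ c p)
    (hv : ∀ s, DifferentiableAt ℝ (fun q => v q s) p) (X : E) :
    fderiv ℝ (fun q => evT (T (c q)) (v q)) p X =
      evT (cov G T (c p)) (Fin.cons (fderiv ℝ c p X) (v p)) +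
        ∑ s, evT (T (c p)) (update (v p) s
          (fderiv ℝ (fun q => v q s) p X + Gam G (c p) (fderiv ℝ c p X) (v p s))) := by
  rw [fderiv_evT (A := fun q => T (c q)) (fun J => (hT J).comp p hc) hv, evT_cov]
  have h : ∀ J, fderiv ℝ (fun q => T (c q) J) p X =
      fderiv ℝ (fun z => T z J) (c p) (fderiv ℝ c p X) := by
    intro J
    have := fderiv_comp p (hT J) hc
    exact congrArg (fun L : E →L[ℝ] ℝ => L X) this
  simp only [h, evT_update_add, sum_add_distrib]
  ring

end Leibniz

/-! ### frames -/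

lemma frA_apply (e : Fin n → En n) (A : Arr n k) (I : Fin k → Fin n) :
    frA e A I = evT A fun s => e (I s) := rfl

/-- the inner product in a frame -/
lemma ipA_frame {H : Matrix (Fin n) (Fin n) ℝ} {e : Fin n → En n}
    (h : ∀ i j, H i j = ∑ a, e a i * e a j) (A B : Arr n k) :
    ipA H A B = ∑ I, frA e A I * frA e B I := by
  have h1 : ∀ I J : Fin k → Fin n, ∏ s, H (I s) (J s) =
      ∑ K : Fin k → Fin n, (∏ s, e (K s) (I s)) * ∏ s, e (K s) (J s) := by
    intro I J
    simp only [h]
    rw [Finset.prod_univ_sum, Fintype.piFinset_univ]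
    exact sum_congr rfl fun K _ => prod_mul_distrib
  simp only [ipA, h1, frA, evT, sum_mul, mul_sum]
  rw [sum_comm]
  conv_rhs => rw [sum_comm]
  refine sum_congr rfl fun J _ => ?_
  rw [sum_comm]
  exact sum_congr rfl fun K _ => sum_congr rfl fun I _ => by ring

/-- a trace in a frame -/
lemma evT_tr {H : Matrix (Fin n) (Fin n) ℝ} {e : Fin n → En n}
    (h : ∀ i j, H i j = ∑ a, e a i * e a j) (A : Arr n (k + 2)) (v : Fin k → En n) :
    evT (fun I => ∑ a, ∑ b, H a b * A (Fin.cons a (Fin.cons b I))) v =
      ∑ c, evT A (Fin.cons (e c) (Fin.cons (e c) v)) := by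
  simp only [evT_sum, evT_mul, evT_cons, h, sum_mul, mul_sum]
  conv_rhs => rw [sum_comm]
  refine sum_congr rfl fun a _ => ?_
  rw [sum_comm]
  exact sum_congr rfl fun c _ => sum_congr rfl fun b _ => by ring

end Crest.Agent.N207.AI

end
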