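import Crest.Agent.N207.AI.Nat
import Crest.Agent.N207.A.Arr
import Crest.Agent.N207.A.Co3

/-!
# Row 207 (helper45): static pointwise inequalities in coordinates
-/

set_option autoImplicit false

open scoped ContDiff Topology
open Finset Function Filter
open Crest.GeometryTopology.CoordMetric Crest.GeometryTopology.ChartCurvature
  Crest.GeometryTopology.MetricFamily
open Crest.Agent.R202.Tens Crest.Agent.R247

noncomputable section

namespace Crest.Agent.N207.AI

variable {n k l : ℕ} {G : MetricField n} {U : Set (En n)} {y : En n}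

theorem nsq_nonneg (hG : IsRiemannianOn G U) (hy : y ∈ U) (T : Tn n k) : 0 ≤ nsq G T y :=
  Ar.ipA_nonneg (hG.posDef y hy) _

theorem ip_sq_le (hG : IsRiemannianOn G U) (hy : y ∈ U) (S T : Tn n k) :
    ip G S T y ^ 2 ≤ nsq G S y * nsq G T y := Ar.ipA_sq_le (hG.posDef y hy) _ _


theorem nsq_trT_le (hG : IsRiemannianOn G U) (hy : y ∈ U) (T : Tn n (k + 2)) :
    nsq G (trT G T) y ≤ n * nsq G T y := Ar.ipA_tr_le (hG.posDef y hy) (T y)

theorem nsq_conT_le (hG : IsRiemannianOn G U) (hy : y ∈ U) (S : Tn n k) (T : Tn n (k + 1)) :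
    nsq G (conT G S T) y ≤ nsq G S y * nsq G T y := Ar.ipA_con_le (hG.posDef y hy) (S y) (T y)

theorem nsq_rank0 (G : MetricField n) (T : Tn n 0) (y : En n) : nsq G T y = T y ![] ^ 2 := by
  rw [nsq, ip, Ar.ipA_rank0, sq]

theorem trT_sq_le (hG : IsRiemannianOn G U) (hy : y ∈ U) (T : Tn n 2) :
    trT (k := 0) G T y ![] ^ 2 ≤ n * nsq G T y := by
  rw [← nsq_rank0 G]; exact nsq_trT_le hG hy T

/-- **Kato's inequality** -/
theorem kato_nsq (hG : IsRiemannianOn G U) (hy : y ∈ U) {T : Tn n k} (hT : DfT T y) :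
    Bo84.gam G (nsq G T) (nsq G T) y ≤ 4 * nsq G T y * nsq G (cov G T) y := by
  have h := nsq_conT_le hG hy T (cov G T)
  rw [← ip_dT, ip, dT_nsq hG hy hT, Ar.ipA_smul_left, Ar.ipA_smul_right]
  have h2 : ipA (G y)⁻¹ (conT G T (cov G T) y) (conT G T (cov G T) y) =
      nsq G (conT G T (cov G T)) y := rfl
  rw [h2]
  linarith

theorem lap_sq_le (hG : IsRiemannianOn G U) (hy : y ∈ U) {f : En n → ℝ}
    (hf : ContDiffAt ℝ 2 f y) : laplaceBeltrami G f y ^ 2 ≤ n * nsq G (hessT G f) y := by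
  rw [lapB_eq_trT hG hy hf]; exact trT_sq_le hG hy _

theorem scal_eq_trT (G : MetricField n) (y : En n) :
    scalarCurv G y = trT (k := 0) G (ricT G) y ![] := rfl

theorem scal_sq_le (hG : IsRiemannianOn G U) (hy : y ∈ U) :
    scalarCurv G y ^ 2 ≤ n * nsq G (ricT G) y := by
  rw [scal_eq_trT]; exact trT_sq_le hG hy _

theorem ip_matT (hG : IsRiemannianOn G U) (hy : y ∈ U) (T : Tn n 2) :
    ip G (matT G) T y = trT (k := 0) G T y ![] := by
  rw [ip, Ar.ipA_rank2, trT_zero_rank]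
  have h : ∀ a b, ∑ c, ∑ d, (G y)⁻¹ c d * (matT G y ![a, c] * T y ![b, d]) = T y ![b, a] := by
    intro a b
    rw [← g_ginv_sum hG hy a fun d => T y ![b, d]]
    refine sum_congr rfl fun c _ => ?_
    rw [mul_sum]
    exact sum_congr rfl fun d _ => by simp only [matT, Matrix.cons_val_zero, Matrix.cons_val_one]; ring
  simp only [h]
  rw [sum_comm]
  exact sum_congr rfl fun a _ => sum_congr rfl fun b _ => by rw [ginv_symm hG hy]

theorem nsq_matT (hG : IsRiemannianOn G U) (hy : y ∈ U) : nsq G (matT G) y = n := by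
  rw [nsq, ip_matT hG hy, trT_zero_rank, ← tr_g hG hy]
  rfl

/-- `0 ≤ |A + B - c g|²`, expanded -/
theorem sol_nonneg (hG : IsRiemannianOn G U) (hy : y ∈ U) (A B : Tn n 2) (c : ℝ) :
    0 ≤ nsq G B y + 2 * ip G A B y + nsq G A y -
      2 * c * (trT (k := 0) G A y ![] + trT (k := 0) G B y ![]) + c ^ 2 * n := by
  have hp := hG.posDef y hy
  have h := Ar.ipA_nonneg hp (A y + B y - c • matT G y)
  rw [Ar.ipA_sub_self hp, Ar.ipA_add_self hp, Ar.ipA_smul_left, Ar.ipA_smul_right,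
    Ar.ipA_smul_right, Ar.ipA_comm hp (A y + B y), Ar.ipA_add_right] at h
  have h1 := ip_matT hG hy A
  have h2 := ip_matT hG hy B
  have h3 := nsq_matT hG hy
  simp only [nsq, ip] at h1 h2 h3 ⊢
  rw [h1, h2, h3] at h
  linarith

/-! ### traces in inner slots -/

/-- renaming of the slots -/
def ren (σ : Fin k ≃ Fin l) (T : Tn n k) : Tn n l := fun z J => T z (J ∘ σ)

theorem nsq_ren (σ : Fin k ≃ Fin l) (T : Tn n k) (y : En n) : nsq G (ren σ T) y = nsq G T y :=
  Ar.ipA_perm _ σ _ _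


theorem cov_ren (G : MetricField n) (σ : Fin k ≃ Fin l) (T : Tn n k) (y : En n) (a : Fin n)
    (I : Fin l → Fin n) :
    cov G (ren σ T) y (Fin.cons a I) = cov G T y (Fin.cons a (I ∘ σ)) := by
  obtain rfl : k = l := Fin.equiv_iff_eq.1 ⟨σ⟩
  exact cov_perm G σ T y a I

/-- the renaming needed to move a trace through a covariant derivative -/
def shf (σ : Fin k ≃ Fin (l + 2)) : Fin (k + 1) ≃ Fin (l + 1 + 2) :=
  (finSuccEquiv k).trans (σ.optionCongr.trans (finSuccEquiv' (2 : Fin (l + 3))).symm)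

theorem cons_shf (σ : Fin k ≃ Fin (l + 2)) (a b c : Fin n) (I : Fin l → Fin n) :
    (Fin.cons a (Fin.cons b (Fin.cons c I)) : Fin (l + 1 + 2) → Fin n) ∘ shf σ =
      Fin.cons c ((Fin.cons a (Fin.cons b I) : Fin (l + 2) → Fin n) ∘ σ) := by
  funext s
  refine Fin.cases ?_ (fun s => ?_) s
  · simp [shf]
    rfl
  · have h : shf σ s.succ = (2 : Fin (l + 3)).succAbove (σ s) := by
      simp [shf]
    rw [comp_apply, h, Fin.cons_succ, comp_apply]
    generalize σ s = r
    refine Fin.cases rfl (fun r => Fin.cases rfl (fun r => ?_) r) r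
    have h2 : (2 : Fin (l + 3)).succAbove r.succ.succ = r.succ.succ.succ := by
      rw [Fin.succAbove_of_le_castSucc]
      rw [Fin.le_def]
      simp [Nat.mod_eq_of_lt (show 2 < l + 3 by omega)]
    rw [h2]
    rfl

theorem cov_trT_ren (hG : IsRiemannianOn G U) (hy : y ∈ U) (σ : Fin k ≃ Fin (l + 2))
    {T : Tn n k} (hT : DfT T y) :
    cov G (trT G (ren σ T)) y = trT G (ren (shf σ) (cov G T)) y := by
  refine arr_ext fun c I => ?_
  rw [cov_trT (T := ren σ T) hG hy (fun _ => hT _)]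
  refine sum_congr rfl fun a _ => sum_congr rfl fun b _ => ?_
  rw [cov_ren, ren, cons_shf]

theorem covN_trT_ren (hG : IsRiemannianOn G U) (σ : Fin k ≃ Fin (l + 2)) {T : Tn n k}
    (hT : SmT T U) (j : ℕ) : ∃ τ : Fin (k + j) ≃ Fin (l + j + 2), ∀ y ∈ U,
      covN G (trT G (ren σ T)) j y = trT G (ren τ (covN G T j)) y := by
  induction j with
  | zero => exact ⟨σ, fun _ _ => rfl⟩
  | succ j ih =>
    obtain ⟨τ, hτ⟩ := ih
    refine ⟨shf τ, fun y hy => ?_⟩
    have h1 : covN G (trT G (ren σ T)) (j + 1) y = cov G (trT G (ren τ (covN G T j))) y :=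
      cov_congr_on hG.isOpen hy hτ
    rw [h1]
    exact cov_trT_ren hG hy τ (smT_diff hG.isOpen (smT_covN hG hT j) hy)

theorem nsq_covN_trT_le (hG : IsRiemannianOn G U) (hy : y ∈ U) (σ : Fin k ≃ Fin (l + 2))
    {T : Tn n k} (hT : SmT T U) (j : ℕ) :
    nsq G (covN G (trT G (ren σ T)) j) y ≤ n * nsq G (covN G T j) y := by
  obtain ⟨τ, hτ⟩ := covN_trT_ren hG σ hT j
  have h := nsq_trT_le hG hy (ren τ (covN G T j))
  rw [nsq_ren] at h
  rw [nsq, ip, hτ y hy]
  exact h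

theorem ricT_eq_trT (hG : IsRiemannianOn G U) (hy : y ∈ U) :
    ricT G y = trT (k := 2) G (ren (Equiv.swap (1 : Fin 4) 2) (rmT G)) y := by
  refine arr2_ext fun a b => ?_
  have h1 : ∀ c d : Fin n, ren (Equiv.swap (1 : Fin 4) 2) (rmT G) y
      (Fin.cons c (Fin.cons d ![a, b])) = ∑ m, G y c m * riemann G y m a d b := fun _ _ => rfl
  have h2 : ricT G y ![a, b] = ricci G y a b := rfl
  rw [h2, ricci_eq_sum_riemann hG hy, trT, sum_comm]
  refine sum_congr rfl fun d _ => ?_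
  simp only [h1]
  rw [← ginv_g_sum hG hy d fun m => riemann G y m a d b]
  exact sum_congr rfl fun c _ => by rw [ginv_symm hG hy]

/-- `|∇ʲ Ric|² ≤ n |∇ʲ Rm|²` -/
theorem nsq_covN_ric_le (hG : IsRiemannianOn G U) (hy : y ∈ U) (j : ℕ) :
    nsq G (covN G (ricT G) j) y ≤ n * nsq G (covN G (rmT G) j) y := by
  have h := nsq_covN_trT_le hG hy (l := 2) (Equiv.swap (1 : Fin 4) 2) (smT_rmT hG) j
  rwa [← (nsq_congr EventuallyEq.rfl (covN_congr EventuallyEq.rfl
    (ev_of_on hG.isOpen hy fun z hz => ricT_eq_trT hG hz) j)).eq_of_nhds] at h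

/-- `|∇R|² ≤ n |∇Ric|²` -/
theorem gam_scal_le (hG : IsRiemannianOn G U) (hy : y ∈ U) :
    Bo84.gam G (scalarCurv G) (scalarCurv G) y ≤ n * nsq G (cov G (ricT G)) y := by
  have h := nsq_covN_trT_le hG hy (l := 0) (Equiv.refl (Fin 2)) (smT_ricT hG) 1
  have h2 : trT (k := 0) G (ren (Equiv.refl (Fin 2)) (ricT G)) = fnT (scalarCurv G) := by
    funext z I
    rw [Subsingleton.elim I ![]]
    rfl
  rw [h2, covN_one, cov_fnT, nsq, ip_dT] at h
  exact h

/-- `|Ric(X, Y)|` for gradients -/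
theorem abs_ric_grad_le (hG : IsRiemannianOn G U) (hy : y ∈ U) (f : En n → ℝ) :
    |∑ i, ∑ j, ricci G y i j * Bo84.grad G f y i * Bo84.grad G f y j| ≤
      √(nsq G (ricT G) y) * Bo84.gam G f f y := by
  have h := Ar.abs_evT_le (hG.posDef y hy) (ricT G y) ![Bo84.grad G f y, Bo84.grad G f y]
  rw [evT_ricT, Fin.prod_univ_two] at h
  simp only [Matrix.cons_val_zero, Matrix.cons_val_one] at h
  rwa [Real.mul_self_sqrt (Bo84.bil_self_nonneg hG hy _), ← Bo84.gam_eq_bil hG hy] at h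

end Crest.Agent.N207.AI

end
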