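import Crest.Agent.N207.AI.Ev

/-!
# Row 207 (helper45): locality and naturality under local isometries of the tensor calculus
-/

set_option autoImplicit false

open scoped ContDiff Topology
open Finset Function Filter
open Crest.GeometryTopology.CoordMetric Crest.GeometryTopology.ChartCurvature
  Crest.GeometryTopology.MetricFamily
open Crest.Agent.R202.Tens Crest.Agent.R247.Bo84

noncomputable section

namespace Crest.Agent.N207.AI

variable {n k : ℕ}

/-! ### locality -/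

section congr

variable {G G' : MetricField n} {y : En n}

lemma pderiv_congr {f f' : En n → ℝ} (h : f =ᶠ[𝓝 y] f') (i : Fin n) :
    pderiv i f =ᶠ[𝓝 y] pderiv i f' := by
  filter_upwards [h.eventuallyEq_nhds] with z hz
  rw [pderiv, pderiv, hz.fderiv_eq]

lemma christoffel_congr (h : G =ᶠ[𝓝 y] G') : christoffel G =ᶠ[𝓝 y] christoffel G' := by
  have h1 : ∀ a i j, (pderiv a fun z => G z i j) =ᶠ[𝓝 y] pderiv a fun z => G' z i j :=
    fun a i j => pderiv_congr (by filter_upwards [h] with z hz; rw [hz]) a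
  filter_upwards [h, eventually_all.2 fun a => eventually_all.2 fun i =>
    eventually_all.2 fun j => h1 a i j] with z hz hz'
  funext l i j
  simp only [christoffel, inverseField, hz, hz']


lemma ricci_congr (h : G =ᶠ[𝓝 y] G') : ricci G =ᶠ[𝓝 y] ricci G' := by
  have h0 := christoffel_congr h
  have h1 : ∀ a l i j, (pderiv a fun z => christoffel G z l i j) =ᶠ[𝓝 y]
      pderiv a fun z => christoffel G' z l i j :=
    fun a l i j => pderiv_congr (by filter_upwards [h0] with z hz; rw [hz]) a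
  have h2 : ∀ a i, (pderiv a fun z => ∑ l, christoffel G z l l i) =ᶠ[𝓝 y]
      pderiv a fun z => ∑ l, christoffel G' z l l i :=
    fun a i => pderiv_congr (by filter_upwards [h0] with z hz; rw [hz]) a
  filter_upwards [h0, eventually_all.2 fun a => eventually_all.2 fun l =>
    eventually_all.2 fun i => eventually_all.2 fun j => h1 a l i j,
    eventually_all.2 fun a => eventually_all.2 fun i => h2 a i] with z hz hz' hz''
  funext i j
  simp only [ricci, hz, hz', hz'']


lemma ricT_congr (h : G =ᶠ[𝓝 y] G') : ricT G =ᶠ[𝓝 y] ricT G' := by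
  filter_upwards [ricci_congr h] with z hz
  funext I
  simp only [ricT, hz]

lemma scalarCurv_congr (h : G =ᶠ[𝓝 y] G') : scalarCurv G =ᶠ[𝓝 y] scalarCurv G' := by
  filter_upwards [h, ricci_congr h] with z hz hz'
  simp only [scalarCurv, hz, hz']

lemma cov_congr {T T' : Tn n k} (hG : G =ᶠ[𝓝 y] G') (hT : T =ᶠ[𝓝 y] T') :
    cov G T =ᶠ[𝓝 y] cov G' T' := by
  have h1 : ∀ a I, (pderiv a fun z => T z I) =ᶠ[𝓝 y] pderiv a fun z => T' z I :=
    fun a I => pderiv_congr (by filter_upwards [hT] with z hz; rw [hz]) a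
  filter_upwards [hT, christoffel_congr hG, eventually_all.2 fun a => eventually_all.2 fun I =>
    h1 a I] with z hz hz' hz''
  funext J
  simp only [cov, hz, hz', hz'']

lemma covN_congr {T T' : Tn n k} (hG : G =ᶠ[𝓝 y] G') (hT : T =ᶠ[𝓝 y] T') (j : ℕ) :
    covN G T j =ᶠ[𝓝 y] covN G' T' j := by
  induction j with
  | zero => exact hT
  | succ j ih => exact cov_congr hG ih

lemma ip_congr {S S' T T' : Tn n k} (hG : G =ᶠ[𝓝 y] G') (hS : S =ᶠ[𝓝 y] S')
    (hT : T =ᶠ[𝓝 y] T') : ip G S T =ᶠ[𝓝 y] ip G' S' T' := by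
  filter_upwards [hG, hS, hT] with z h1 h2 h3
  simp only [ip, h1, h2, h3]

lemma nsq_congr {T T' : Tn n k} (hG : G =ᶠ[𝓝 y] G') (hT : T =ᶠ[𝓝 y] T') :
    nsq G T =ᶠ[𝓝 y] nsq G' T' := ip_congr hG hT hT

lemma trT_congr {T T' : Tn n (k + 2)} (hG : G =ᶠ[𝓝 y] G') (hT : T =ᶠ[𝓝 y] T') :
    trT G T =ᶠ[𝓝 y] trT G' T' := by
  filter_upwards [hG, hT] with z h1 h2
  funext I
  simp only [trT, h1, h2]

lemma divT_congr {T T' : Tn n (k + 1)} (hG : G =ᶠ[𝓝 y] G') (hT : T =ᶠ[𝓝 y] T') :
    divT G T =ᶠ[𝓝 y] divT G' T' := trT_congr hG (cov_congr hG hT)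

lemma lapT_congr {T T' : Tn n k} (hG : G =ᶠ[𝓝 y] G') (hT : T =ᶠ[𝓝 y] T') :
    lapT G T =ᶠ[𝓝 y] lapT G' T' := trT_congr hG (cov_congr hG (cov_congr hG hT))

lemma conT_congr {S S' : Tn n k} {T T' : Tn n (k + 1)} (hG : G =ᶠ[𝓝 y] G') (hS : S =ᶠ[𝓝 y] S')
    (hT : T =ᶠ[𝓝 y] T') : conT G S T =ᶠ[𝓝 y] conT G' S' T' := by
  filter_upwards [hG, hS, hT] with z h1 h2 h3
  funext I
  simp only [conT, h1, h2, h3]

lemma dT_congr {f f' : En n → ℝ} (h : f =ᶠ[𝓝 y] f') : dT f =ᶠ[𝓝 y] dT f' := by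
  filter_upwards [eventually_all.2 fun a => pderiv_congr h a] with z hz
  funext I
  simp only [dT, hz]

lemma hessT_congr {f f' : En n → ℝ} (hG : G =ᶠ[𝓝 y] G') (h : f =ᶠ[𝓝 y] f') :
    hessT G f =ᶠ[𝓝 y] hessT G' f' := cov_congr hG (dT_congr h)

end congr

/-! ### smoothness -/

section smooth

variable {G : MetricField n} {U : Set (En n)}

lemma smT_at {T : Tn n k} (hU : IsOpen U) (hT : SmT T U) {y : En n} (hy : y ∈ U)
    (I : Fin k → Fin n) : ContDiffAt ℝ ∞ (fun z => T z I) y :=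
  (hT I).contDiffAt (hU.mem_nhds hy)

lemma smT_diff {T : Tn n k} (hU : IsOpen U) (hT : SmT T U) {y : En n} (hy : y ∈ U)
    (I : Fin k → Fin n) : DifferentiableAt ℝ (fun z => T z I) y :=
  (smT_at hU hT hy I).differentiableAt (by simp)

lemma smT_cov (hG : IsRiemannianOn G U) {T : Tn n k} (hT : SmT T U) : SmT (cov G T) U :=
  fun _ => (contDiffOn_pderiv hG.isOpen (hT _) _).sub
    (ContDiffOn.sum fun _ _ => ContDiffOn.sum fun _ _ =>
      (contDiffOn_christoffel hG _ _ _).mul (hT _))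

lemma smT_covN (hG : IsRiemannianOn G U) {T : Tn n k} (hT : SmT T U) (j : ℕ) :
    SmT (covN G T j) U := by
  induction j with
  | zero => exact hT
  | succ j ih => exact smT_cov hG ih

lemma smT_rmT (hG : IsRiemannianOn G U) : SmT (rmT G) U := by
  intro I
  unfold rmT riemannLower riemann
  have hc := contDiffOn_christoffel hG
  exact ContDiffOn.sum fun _ _ => (hG.contDiffOn _ _).mul
    (((contDiffOn_pderiv hG.isOpen (hc _ _ _) _).sub
      (contDiffOn_pderiv hG.isOpen (hc _ _ _) _)).add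
      (ContDiffOn.sum fun _ _ => ((hc _ _ _).mul (hc _ _ _)).sub ((hc _ _ _).mul (hc _ _ _))))

lemma smT_ricT (hG : IsRiemannianOn G U) : SmT (ricT G) U := by
  intro I
  unfold ricT ricci
  have hc := contDiffOn_christoffel hG
  exact (((ContDiffOn.sum fun _ _ => contDiffOn_pderiv hG.isOpen (hc _ _ _) _).sub
    (contDiffOn_pderiv hG.isOpen (ContDiffOn.sum fun _ _ => hc _ _ _) _)).add
    (ContDiffOn.sum fun _ _ => ContDiffOn.sum fun _ _ => (hc _ _ _).mul (hc _ _ _))).sub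
    (ContDiffOn.sum fun _ _ => ContDiffOn.sum fun _ _ => (hc _ _ _).mul (hc _ _ _))


lemma smT_pullT {Φ : En n → En n} {V W : Set (En n)} (hV : IsOpen V)
    (hΦ : ContDiffOn ℝ ∞ Φ V) (hm : ∀ y ∈ V, Φ y ∈ W) {T : Tn n k} (hT : SmT T W) :
    SmT (pullT Φ T) V := fun _ =>
  contDiffOn_evT (fun J => (hT J).comp hΦ hm) fun _ =>
    (hΦ.fderiv_of_isOpen hV (by simp)).clm_apply contDiffOn_const

end smooth

/-! ### pull-backs -/

lemma evT_pullT (Φ : En n → En n) (T : Tn n k) (y : En n) (v : Fin k → En n) :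
    evT (pullT Φ T y) v = evT (T (Φ y)) fun s => fderiv ℝ Φ y (v s) :=
  evT_map (fderiv ℝ Φ y) (T (Φ y)) v

lemma frA_pullT (Φ : En n → En n) (T : Tn n k) (y : En n) (e : Fin n → En n) :
    frA e (pullT Φ T y) = frA (fun a => fderiv ℝ Φ y (e a)) (T (Φ y)) := by
  funext I
  exact evT_pullT Φ T y _

lemma pullT_congr {Φ Φ' : En n → En n} {T T' : Tn n k} {y : En n} (h : Φ =ᶠ[𝓝 y] Φ')
    (hT : T (Φ y) = T' (Φ y)) : pullT Φ T y = pullT Φ' T' y := by
  funext I
  rw [pullT, pullT, hT, h.fderiv_eq, h.eq_of_nhds]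

lemma pullT_comp {Φ Ψ : En n → En n} (T : Tn n k) {y : En n} (hΦ : DifferentiableAt ℝ Φ y)
    (hΨ : DifferentiableAt ℝ Ψ (Φ y)) :
    pullT Φ (pullT Ψ T) y = pullT (fun z => Ψ (Φ z)) T y := by
  funext I
  have h : fderiv ℝ (fun z => Ψ (Φ z)) y = (fderiv ℝ Ψ (Φ y)).comp (fderiv ℝ Φ y) :=
    fderiv_comp y hΨ hΦ
  rw [pullT, evT_pullT, pullT, h]
  rfl

lemma pullT_id (T : Tn n k) : pullT (fun z => z) T = T := by
  funext y I
  simp only [pullT, fderiv_fun_id, ContinuousLinearMap.id_apply]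
  exact evT_single _ _

lemma pullT_add (Φ : En n → En n) (S T : Tn n k) (y : En n) (I : Fin k → Fin n) :
    pullT Φ (fun z J => S z J + T z J) y I = pullT Φ S y I + pullT Φ T y I := evT_add _ _ _

lemma pullT_sub (Φ : En n → En n) (S T : Tn n k) (y : En n) (I : Fin k → Fin n) :
    pullT Φ (fun z J => S z J - T z J) y I = pullT Φ S y I - pullT Φ T y I := evT_sub _ _ _

lemma smT_pull (Φ : En n → En n) (f : En n → ℝ) (T : Tn n k) :
    smT (fun z => f (Φ z)) (pullT Φ T) = pullT Φ (smT f T) := by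
  funext y I
  exact (evT_mul _ _ _).symm

lemma fnT_pull (Φ : En n → En n) (f : En n → ℝ) : fnT (fun z => f (Φ z)) = pullT Φ (fnT f) := by
  funext y I
  rw [pullT, evT_zero_rank]
  rfl

lemma dT_pull {Φ : En n → En n} {f : En n → ℝ} {y : En n} (hΦ : DifferentiableAt ℝ Φ y)
    (hf : DifferentiableAt ℝ f (Φ y)) : dT (fun z => f (Φ z)) y = pullT Φ (dT f) y := by
  funext I
  have h : fderiv ℝ (fun z => f (Φ z)) y = (fderiv ℝ f (Φ y)).comp (fderiv ℝ Φ y) :=
    fderiv_comp y hf hΦ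
  rw [pullT, evT_one, dT, pderiv, h, ContinuousLinearMap.comp_apply, fderiv_eq_sum]
  rfl

variable {G G' : MetricField n} {Φ : En n → En n} {V W : Set (En n)} {y : En n}

theorem smT_of_pull (p : Pull G' G Φ V W) {T : Tn n k} (hT : SmT T W) :
    SmT (pullT Φ T) V := smT_pullT p.isOpen p.smooth p.maps hT

lemma update_comp {α β : Type*} (L : α → β) (v : Fin k → α) (s : Fin k) (w : α) :
    (fun s' => L (update v s w s')) = update (fun s' => L (v s')) s (L w) := by
  funext s'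
  by_cases h : s' = s
  · subst h; simp
  · simp [update_of_ne h]

lemma cons_comp {α β : Type*} (L : α → β) (a : α) (v : Fin k → α) :
    (fun s => L ((Fin.cons a v : Fin (k + 1) → α) s)) = Fin.cons (L a) fun s => L (v s) := by
  funext s
  refine Fin.cases rfl (fun _ => rfl) s

/-- **naturality of the covariant derivative** -/
theorem cov_pullT (p : Pull G' G Φ V W) (hy : y ∈ V) {T : Tn n k}
    (hT : ∀ I, DifferentiableAt ℝ (fun z => T z I) (Φ y)) :
    cov G' (pullT Φ T) y = pullT Φ (cov G T) y := by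
  funext J
  obtain ⟨a, I, rfl⟩ : ∃ a I, J = Fin.cons a I := ⟨J 0, Fin.tail J, (Fin.cons_self_tail J).symm⟩
  have hΦ : DifferentiableAt ℝ Φ y := pull_differentiableAt p hy
  have hΦ2 : DifferentiableAt ℝ (fderiv ℝ Φ) y :=
    ((p.contDiffAt hy).fderiv_right (m := 1) two_le_infty).differentiableAt (by simp)
  have hv : ∀ s, DifferentiableAt ℝ (fun z => fderiv ℝ Φ z (eb (I s))) y := fun s =>
    hΦ2.clm_apply (differentiableAt_const _)
  have hv' : ∀ s, fderiv ℝ (fun z => fderiv ℝ Φ z (eb (I s))) y (eb a) =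
      fderiv ℝ (fderiv ℝ Φ) y (eb a) (eb (I s)) := by
    intro s
    rw [fderiv_clm_apply hΦ2 (differentiableAt_const _)]
    simp
  rw [← evT_single (cov G' (pullT Φ T) y), cons_comp eb, evT_cov, evT_single]
  have h1 := fderiv_evT_cov G (v := fun z s => fderiv ℝ Φ z (eb (I s))) hT hΦ hv (eb a)
  have h2 : (fun z => pullT Φ T z I) = fun z => evT (T (Φ z)) fun s => fderiv ℝ Φ z (eb (I s)) := rfl
  rw [h2, h1, pullT, cons_comp fun i => fderiv ℝ Φ y (eb i), add_sub_assoc, add_eq_left,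
    sub_eq_zero]
  refine sum_congr rfl fun s _ => ?_
  rw [evT_pullT, update_comp, p.gam_eq hy, hv', add_comm]

theorem cov_pullT_ev (p : Pull G' G Φ V W) (hy : y ∈ V) {T : Tn n k} (hT : SmT T W) :
    cov G' (pullT Φ T) =ᶠ[𝓝 y] pullT Φ (cov G T) := by
  filter_upwards [p.isOpen.mem_nhds hy] with z hz
  exact cov_pullT p hz (smT_diff p.riem.isOpen hT (p.maps z hz))

theorem covN_pullT_ev (p : Pull G' G Φ V W) (hy : y ∈ V) {T : Tn n k} (hT : SmT T W) (j : ℕ) :
    covN G' (pullT Φ T) j =ᶠ[𝓝 y] pullT Φ (covN G T j) := by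
  induction j with
  | zero => exact EventuallyEq.rfl
  | succ j ih =>
    exact (cov_congr EventuallyEq.rfl ih).trans (cov_pullT_ev p hy (smT_covN p.riem hT j))


/-- a frame at `y` together with its image -/
lemma exists_frames (p : Pull G' G Φ V W) (hy : y ∈ V) : ∃ e : Fin n → En n,
    IsFrame (G' y) e ∧ IsFrame (G (Φ y)) fun a => fderiv ℝ Φ y (e a) := by
  obtain ⟨e, he⟩ := exists_frame p.riem' hy
  exact ⟨e, he, isFrame_of_orth (frame_pull p hy he)⟩

theorem ip_pullT (p : Pull G' G Φ V W) (hy : y ∈ V) (S T : Tn n k) :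
    ip G' (pullT Φ S) (pullT Φ T) y = ip G S T (Φ y) := by
  obtain ⟨e, he, he'⟩ := exists_frames p hy
  rw [ip, ip, ipA_frame he.inv, ipA_frame he'.inv, frA_pullT, frA_pullT]

theorem nsq_pullT (p : Pull G' G Φ V W) (hy : y ∈ V) (T : Tn n k) :
    nsq G' (pullT Φ T) y = nsq G T (Φ y) := ip_pullT p hy T T

theorem trT_pullT (p : Pull G' G Φ V W) (hy : y ∈ V) (T : Tn n (k + 2)) :
    trT G' (pullT Φ T) y = pullT Φ (trT G T) y := by
  obtain ⟨e, he, he'⟩ := exists_frames p hy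
  funext I
  rw [← evT_single (trT G' (pullT Φ T) y), pullT]
  unfold trT
  rw [evT_tr he.inv, evT_tr he'.inv]
  refine sum_congr rfl fun c _ => ?_
  rw [evT_pullT, cons_comp, cons_comp]

theorem divT_pullT (p : Pull G' G Φ V W) (hy : y ∈ V) {T : Tn n (k + 1)} (hT : SmT T W) :
    divT G' (pullT Φ T) y = pullT Φ (divT G T) y := by
  rw [divT, (trT_congr EventuallyEq.rfl (cov_pullT_ev p hy hT)).eq_of_nhds, trT_pullT p hy, divT]

theorem lapT_pullT (p : Pull G' G Φ V W) (hy : y ∈ V) {T : Tn n k} (hT : SmT T W) :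
    lapT G' (pullT Φ T) y = pullT Φ (lapT G T) y := by
  have h : cov G' (cov G' (pullT Φ T)) =ᶠ[𝓝 y] pullT Φ (cov G (cov G T)) :=
    covN_pullT_ev p hy hT 2
  rw [lapT, (trT_congr EventuallyEq.rfl h).eq_of_nhds, trT_pullT p hy, lapT]

lemma evT_conT {H : Matrix (Fin n) (Fin n) ℝ} {e : Fin n → En n}
    (h : ∀ i j, H i j = ∑ a, e a i * e a j) (A : Arr n k) (B : Arr n (k + 1))
    (v : Fin 1 → En n) :
    evT (fun I : Fin 1 → Fin n => ipA H A fun J => B (Fin.cons (I 0) J)) v =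
      ∑ I, frA e A I * evT B (Fin.cons (v 0) fun s => e (I s)) := by
  simp only [evT_one, ipA_frame h, evT_cons, mul_sum]
  rw [sum_comm]
  refine sum_congr rfl fun I _ => sum_congr rfl fun a _ => ?_
  rw [mul_left_comm]
  rfl

theorem conT_pullT (p : Pull G' G Φ V W) (hy : y ∈ V) (S : Tn n k) (T : Tn n (k + 1)) :
    conT G' (pullT Φ S) (pullT Φ T) y = pullT Φ (conT G S T) y := by
  obtain ⟨e, he, he'⟩ := exists_frames p hy
  funext I
  rw [← evT_single (conT G' (pullT Φ S) (pullT Φ T) y), pullT]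
  unfold conT
  rw [evT_conT he.inv, evT_conT he'.inv, frA_pullT]
  refine sum_congr rfl fun K _ => ?_
  rw [evT_pullT, cons_comp]

lemma evT_matT (A : MetricField n) (y : En n) (v : Fin 2 → En n) :
    evT (matT A y) v = bil (A y) (v 0) (v 1) := by
  rw [evT_two, bil_apply]
  exact sum_congr rfl fun a _ => sum_congr rfl fun b _ => by simp [matT]; ring

lemma evT_ricT (G : MetricField n) (y : En n) (v : Fin 2 → En n) :
    evT (ricT G y) v = ∑ a, ∑ b, ricci G y a b * v 0 a * v 1 b := by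
  rw [evT_two]
  exact sum_congr rfl fun a _ => sum_congr rfl fun b _ => by simp [ricT]; ring

lemma evT_rmT {U : Set (En n)} (hG : IsRiemannianOn G U) (hy : y ∈ U) (v : Fin 4 → En n) :
    evT (rmT G y) v = bil (G y) (v 0) (curv (Gam G) y (v 2) (v 3) (v 1)) := by
  rw [evT_four, bil_apply]
  refine sum_congr rfl fun a _ => ?_
  simp only [curv_apply fun k i j => differentiableAt_christoffel hG hy k i j, rmT, riemannLower,
    mul_sum]
  conv_rhs => rw [sum_comm]
  refine sum_congr rfl fun b _ => ?_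
  conv_rhs => rw [sum_comm]
  refine sum_congr rfl fun c _ => ?_
  conv_rhs => rw [sum_comm]
  refine sum_congr rfl fun d _ => sum_congr rfl fun m _ => ?_
  simp only [Matrix.cons_val_zero, Matrix.cons_val_one, Matrix.cons_val]
  ring

theorem matT_pull (p : Pull G' G Φ V W) (hy : y ∈ V) : matT G' y = pullT Φ (matT G) y := by
  funext I
  rw [← evT_single (matT G' y), pullT, evT_matT, evT_matT, p.bil_eq hy]

theorem ricT_pull (p : Pull G' G Φ V W) (hy : y ∈ V) : ricT G' y = pullT Φ (ricT G) y := by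
  funext I
  rw [← evT_single (ricT G' y), pullT, evT_ricT, evT_ricT, p.ricci_pull hy]

theorem rmT_pull (p : Pull G' G Φ V W) (hy : y ∈ V) : rmT G' y = pullT Φ (rmT G) y := by
  funext I
  rw [← evT_single (rmT G' y), pullT, evT_rmT p.riem' hy, evT_rmT p.riem (p.maps y hy),
    p.bil_eq hy, p.curv_eq hy]

theorem scalarCurv_pull (p : Pull G' G Φ V W) (hy : y ∈ V) :
    scalarCurv G' y = scalarCurv G (Φ y) := by
  have h1 : ∀ G : MetricField n, ∀ y, scalarCurv G y = trT (k := 0) G (ricT G) y ![] :=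
    fun _ _ => rfl
  have h2 : trT (k := 0) G' (ricT G') y = trT (k := 0) G' (pullT Φ (ricT G)) y := by
    funext I
    simp only [trT, ricT_pull p hy]
  rw [h1, h1, h2, trT_pullT p hy, pullT, evT_zero_rank]

theorem hessT_pull (p : Pull G' G Φ V W) (hy : y ∈ V) {f : En n → ℝ}
    (hf : ContDiffAt ℝ 2 f (Φ y)) :
    hessT G' (fun z => f (Φ z)) y = pullT Φ (hessT G f) y := by
  have h1 : dT (fun z => f (Φ z)) =ᶠ[𝓝 y] pullT Φ (dT f) := by
    filter_upwards [p.isOpen.mem_nhds hy, (pull_differentiableAt p hy).continuousAt.eventually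
      (eventually_differentiableAt hf)] with z hz hz'
    exact dT_pull (pull_differentiableAt p hz) hz'
  rw [hessT, (cov_congr EventuallyEq.rfl h1).eq_of_nhds, hessT]
  exact cov_pullT p hy fun I =>
    (contDiffAt_pderiv (m := 1) hf (by norm_num) _).differentiableAt (by simp)

theorem covN_rm_pull (p : Pull G' G Φ V W) (hy : y ∈ V) (j : ℕ) :
    covN G' (rmT G') j =ᶠ[𝓝 y] pullT Φ (covN G (rmT G) j) :=
  (covN_congr EventuallyEq.rfl (by
    filter_upwards [p.isOpen.mem_nhds hy] with z hz using rmT_pull p hz) j).trans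
    (covN_pullT_ev p hy (smT_rmT p.riem) j)

theorem covN_ric_pull (p : Pull G' G Φ V W) (hy : y ∈ V) (j : ℕ) :
    covN G' (ricT G') j =ᶠ[𝓝 y] pullT Φ (covN G (ricT G) j) :=
  (covN_congr EventuallyEq.rfl (by
    filter_upwards [p.isOpen.mem_nhds hy] with z hz using ricT_pull p hz) j).trans
    (covN_pullT_ev p hy (smT_ricT p.riem) j)

theorem nsq_covN_rm_pull (p : Pull G' G Φ V W) (hy : y ∈ V) (j : ℕ) :
    nsq G' (covN G' (rmT G') j) y = nsq G (covN G (rmT G) j) (Φ y) := by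
  rw [(nsq_congr EventuallyEq.rfl (covN_rm_pull p hy j)).eq_of_nhds, nsq_pullT p hy]

theorem nsq_covN_ric_pull (p : Pull G' G Φ V W) (hy : y ∈ V) (j : ℕ) :
    nsq G' (covN G' (ricT G') j) y = nsq G (covN G (ricT G) j) (Φ y) := by
  rw [(nsq_congr EventuallyEq.rfl (covN_ric_pull p hy j)).eq_of_nhds, nsq_pullT p hy]

end Crest.Agent.N207.AI

end
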