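import Crest.Agent.N207.AI.Par1
import Crest.Agent.N207.AI.Nat
import Crest.Agent.N207.A.Co2

/-!
# Row 207 (helper44): global tensor fields

`Rel Φ V T' T`: `T'` is the pull-back of `T` on `V`; it is preserved by all the operations.
Closure of `IsGlob`; the scalar invariants in every chart; their smoothness.
-/

set_option autoImplicit false
set_option linter.style.haveILetI false
set_option linter.unusedSectionVars false

open scoped ContDiff Manifold Topology
open Set Filter Bundle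
open Crest.GeometryTopology.CoordMetric Crest.GeometryTopology.ChartCurvature
  Crest.GeometryTopology.MetricFamily
open Crest.Agent.R247 Crest.Agent.R202.Tens

noncomputable section

namespace Crest.Agent.N207

variable {n k : ℕ}

/-- `T'` is the pull-back of `T` by `Φ` on `V` -/
def Rel (Φ : En n → En n) (V : Set (En n)) (T' T : Tn n k) : Prop :=
  ∀ y ∈ V, T' y = pullT Φ T y

/-- permutation of the indices -/
def prmT (σ : Equiv.Perm (Fin k)) (T : Tn n k) : Tn n k := fun y I => T y (I ∘ σ)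

theorem evT_perm (σ : Equiv.Perm (Fin k)) (A : Arr n k) (v : Fin k → En n) :
    evT (fun I => A (I ∘ σ)) v = evT A (v ∘ σ) := by
  rw [evT, evT]
  refine Fintype.sum_equiv (Equiv.arrowCongr σ.symm (Equiv.refl _)) _ _ fun I => ?_
  have h : (Equiv.arrowCongr σ.symm (Equiv.refl _)) I = I ∘ σ := rfl
  rw [h, ← Equiv.prod_comp σ fun s => v s (I s)]
  rfl

namespace Rel

variable {G G' : MetricField n} {Φ : En n → En n} {V W : Set (En n)} {y : En n}
  {S S' T T' : Tn n k} {f f' : En n → ℝ}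

theorem ev (h : Rel Φ V T' T) (hV : IsOpen V) (hy : y ∈ V) : T' =ᶠ[𝓝 y] pullT Φ T :=
  ev_of_on hV hy h

theorem zero : Rel Φ V (0 : Tn n k) 0 := fun y _ => by
  funext I; simp [pullT, evT]

theorem add (hS : Rel Φ V S' S) (hT : Rel Φ V T' T) : Rel Φ V (S' + T') (S + T) := fun y hy => by
  funext I
  rw [Pi.add_apply, hS y hy, hT y hy]
  exact (AI.pullT_add Φ S T y I).symm

theorem sub (hS : Rel Φ V S' S) (hT : Rel Φ V T' T) : Rel Φ V (S' - T') (S - T) := fun y hy => by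
  funext I
  rw [Pi.sub_apply, hS y hy, hT y hy]
  exact (AI.pullT_sub Φ S T y I).symm

theorem smul (c : ℝ) (hT : Rel Φ V T' T) : Rel Φ V (c • T') (c • T) := fun y hy => by
  funext I
  rw [Pi.smul_apply, hT y hy]
  exact (AI.evT_mul c _ _).symm

theorem neg (hT : Rel Φ V T' T) : Rel Φ V (-T') (-T) := by
  rw [← neg_one_smul ℝ T, ← neg_one_smul ℝ T']; exact hT.smul _

theorem sum {ι : Type*} (s : Finset ι) {F' F : ι → Tn n k} (h : ∀ a ∈ s, Rel Φ V (F' a) (F a)) :
    Rel Φ V (∑ a ∈ s, F' a) (∑ a ∈ s, F a) := by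
  classical
  induction s using Finset.induction_on with
  | empty => simpa using zero
  | insert a s ha ih =>
    rw [Finset.sum_insert ha, Finset.sum_insert ha]
    exact (h a (Finset.mem_insert_self _ _)).add
      (ih fun b hb => h b (Finset.mem_insert_of_mem hb))

theorem prmT (σ : Equiv.Perm (Fin k)) (hT : Rel Φ V T' T) :
    Rel Φ V (prmT σ T') (prmT σ T) := fun y hy => by
  funext I
  rw [N207.prmT, hT y hy]
  exact (evT_perm σ (T (Φ y)) fun s => fderiv ℝ Φ y (EuclideanSpace.single (I s) 1)).symm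

theorem smT (hf : ∀ y ∈ V, f' y = f (Φ y)) (hT : Rel Φ V T' T) :
    Rel Φ V (smT f' T') (smT f T) := fun y hy => by
  rw [← AI.smT_pull]
  funext I
  simp only [N207.smT, hf y hy, hT y hy]

theorem fnT (hf : ∀ y ∈ V, f' y = f (Φ y)) : Rel Φ V (fnT f') (fnT f) := fun y hy => by
  rw [← AI.fnT_pull]
  funext I
  exact hf y hy

theorem val {T T' : Tn n 0} (hT : Rel Φ V T' T) (hy : y ∈ V) : T' y ![] = T (Φ y) ![] := by
  rw [hT y hy, pullT, AI.evT_zero_rank]

variable (p : Pull G' G Φ V W)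
include p

theorem smooth (h : Rel Φ V T' T) (hT : SmT T W) : SmT T' V := (AI.smT_of_pull p hT).congr h

theorem cov (h : Rel Φ V T' T) (hT : SmT T W) : Rel Φ V (cov G' T') (cov G T) := fun _ hy =>
  ((cov_congr EventuallyEq.rfl (h.ev p.isOpen hy)).trans (AI.cov_pullT_ev p hy hT)).eq_of_nhds

theorem covN (h : Rel Φ V T' T) (hT : SmT T W) :
    ∀ j, Rel Φ V (covN G' T' j) (covN G T j)
  | 0 => h
  | j + 1 => (covN h hT j).cov p (hT.covN p.riem j)

theorem trT {T T' : Tn n (k + 2)} (h : Rel Φ V T' T) : Rel Φ V (trT G' T') (trT G T) :=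
  fun _ hy => (trT_congr EventuallyEq.rfl (h.ev p.isOpen hy)).eq_of_nhds.trans
    (AI.trT_pullT p hy T)

theorem divT {T T' : Tn n (k + 1)} (h : Rel Φ V T' T) (hT : SmT T W) :
    Rel Φ V (divT G' T') (divT G T) := (h.cov p hT).trT p

theorem lapT (h : Rel Φ V T' T) (hT : SmT T W) : Rel Φ V (lapT G' T') (lapT G T) :=
  ((h.cov p hT).cov p (hT.cov p.riem)).trT p

theorem conT {T T' : Tn n (k + 1)} (hS : Rel Φ V S' S) (hT : Rel Φ V T' T) :
    Rel Φ V (conT G' S' T') (conT G S T) := fun _ hy =>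
  (conT_congr EventuallyEq.rfl (hS.ev p.isOpen hy) (hT.ev p.isOpen hy)).eq_of_nhds.trans
    (AI.conT_pullT p hy S T)

theorem ip (hS : Rel Φ V S' S) (hT : Rel Φ V T' T) (hy : y ∈ V) :
    ip G' S' T' y = ip G S T (Φ y) :=
  (ip_congr EventuallyEq.rfl (hS.ev p.isOpen hy) (hT.ev p.isOpen hy)).eq_of_nhds.trans
    (AI.ip_pullT p hy S T)

theorem dT (hf : ∀ y ∈ V, f' y = f (Φ y)) (hd : ContDiffOn ℝ ∞ f W) :
    Rel Φ V (dT f') (dT f) := fun _ hy =>
  (dT_congr (ev_of_on p.isOpen hy hf)).eq_of_nhds.trans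
    (AI.dT_pull (Bo84.pull_differentiableAt p hy) (dAt hd p.riem.isOpen (p.maps _ hy)))

theorem hessT (hf : ∀ y ∈ V, f' y = f (Φ y)) (hd : ContDiffOn ℝ ∞ f W) :
    Rel Φ V (hessT G' f') (hessT G f) := (dT p hf hd).cov p (SmT.dT p.riem.isOpen hd)

theorem matT : Rel Φ V (matT G') (matT G) := fun _ hy => AI.matT_pull p hy

theorem ricT : Rel Φ V (ricT G') (ricT G) := fun _ hy => AI.ricT_pull p hy

theorem rmT : Rel Φ V (rmT G') (rmT G) := fun _ hy => AI.rmT_pull p hy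

end Rel

variable {M : Type*} [TopologicalSpace M] [ChartedSpace (En n) M] [IsManifold 𝓘(ℝ, En n) ∞ M]

theorem Compat.rel {T : CT n M k} (h : Compat T) (x₀ x₁ : M) :
    Rel (Bo84.trans x₀ x₁) (Bo84.tdom x₀ x₁) (T x₀) (T x₁) := h x₀ x₁


theorem compat_fnC (f : M → ℝ) : Compat (fnC n f) := fun _ _ =>
  Rel.fnT fun _ hy => (inCh_trans' f hy).symm

namespace Compat

variable {S T : CT n M k}

theorem add (hS : Compat S) (hT : Compat T) : Compat (S + T) := fun x₀ x₁ =>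
  (hS.rel x₀ x₁).add (hT.rel x₀ x₁)

theorem sub (hS : Compat S) (hT : Compat T) : Compat (S - T) := fun x₀ x₁ =>
  (hS.rel x₀ x₁).sub (hT.rel x₀ x₁)

theorem neg (hT : Compat T) : Compat (-T) := fun x₀ x₁ => (hT.rel x₀ x₁).neg

theorem smul (c : ℝ) (hT : Compat T) : Compat (c • T) := fun x₀ x₁ => (hT.rel x₀ x₁).smul c



theorem tr {T : CT n M (k + 2)} (m : Met n M) (hT : Compat T) : Compat (m.tr T) := fun x₀ x₁ =>
  (hT.rel x₀ x₁).trT (m.pull_trans x₀ x₁)

theorem con {T : CT n M (k + 1)} (m : Met n M) (hS : Compat S) (hT : Compat T) :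
    Compat (m.con S T) := fun x₀ x₁ => (hS.rel x₀ x₁).conT (m.pull_trans x₀ x₁) (hT.rel x₀ x₁)




end Compat

namespace IsGlob

variable {S T : CT n M k} {f : M → ℝ}

theorem zero : IsGlob (0 : CT n M k) := ⟨fun _ => SmT.zero, fun _ _ => Rel.zero⟩

theorem add (hS : IsGlob S) (hT : IsGlob T) : IsGlob (S + T) :=
  ⟨fun x => (hS.sm x).add (hT.sm x), hS.compat.add hT.compat⟩

theorem sub (hS : IsGlob S) (hT : IsGlob T) : IsGlob (S - T) :=
  ⟨fun x => (hS.sm x).sub (hT.sm x), hS.compat.sub hT.compat⟩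

theorem neg (hT : IsGlob T) : IsGlob (-T) := ⟨fun x => (hT.sm x).neg, hT.compat.neg⟩

theorem smul (c : ℝ) (hT : IsGlob T) : IsGlob (c • T) :=
  ⟨fun x => (hT.sm x).smul c, hT.compat.smul c⟩

theorem sum {ι : Type*} (s : Finset ι) {F : ι → CT n M k} (h : ∀ a ∈ s, IsGlob (F a)) :
    IsGlob (∑ a ∈ s, F a) := by
  classical
  induction s using Finset.induction_on with
  | empty => simpa using zero
  | insert a s ha ih =>
    rw [Finset.sum_insert ha]
    exact (h a (Finset.mem_insert_self _ _)).add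
      (ih fun b hb => h b (Finset.mem_insert_of_mem hb))

theorem congr (hT : IsGlob T) (h : ∀ x, ∀ y ∈ tg n x, S x y = T x y) : IsGlob S :=
  ⟨fun x => (hT.sm x).congr (h x), fun x₀ x₁ y hy => by
    rw [h x₀ y hy.1, hT.compat x₀ x₁ y hy]
    exact AI.pullT_congr EventuallyEq.rfl (h x₁ _ (Bo84.trans_mem hy)).symm⟩


theorem fnC (hf : Sm n f) : IsGlob (fnC n f) := ⟨fun x => SmT.fnT (hf.inCh x), compat_fnC f⟩


theorem dC (hf : Sm n f) : IsGlob (dC n f) :=
  ⟨fun x => SmT.dT (isOpen_tg x) (hf.inCh x), fun x₀ x₁ _ hy =>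
    (dT_congr (inCh_trans f hy)).eq_of_nhds.trans (AI.dT_pull
      (((Bo84.contDiffOn_trans x₀ x₁).contDiffAt
        ((Bo84.isOpen_tdom x₀ x₁).mem_nhds hy)).differentiableAt (by simp))
      (dAt (hf.inCh x₁) (isOpen_tg x₁) (Bo84.trans_mem hy)))⟩

variable (m : Met n M)

theorem cov (hT : IsGlob T) : IsGlob (m.cov T) :=
  ⟨fun x => (hT.sm x).cov (m.isRiem x), fun x₀ x₁ =>
    (hT.compat.rel x₀ x₁).cov (m.pull_trans x₀ x₁) (hT.sm x₁)⟩

theorem covN (hT : IsGlob T) (j : ℕ) : IsGlob (m.covN T j) :=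
  ⟨fun x => (hT.sm x).covN (m.isRiem x) j, fun x₀ x₁ =>
    (hT.compat.rel x₀ x₁).covN (m.pull_trans x₀ x₁) (hT.sm x₁) j⟩

theorem tr {T : CT n M (k + 2)} (hT : IsGlob T) : IsGlob (m.tr T) :=
  ⟨fun x => (hT.sm x).trT (m.isRiem x), hT.compat.tr m⟩

theorem div {T : CT n M (k + 1)} (hT : IsGlob T) : IsGlob (m.div T) := (hT.cov m).tr m


theorem con {T : CT n M (k + 1)} (hS : IsGlob S) (hT : IsGlob T) : IsGlob (m.con S T) :=
  ⟨fun x => (hS.sm x).conT (m.isRiem x) (hT.sm x), hS.compat.con m hT.compat⟩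

theorem hess (hf : Sm n f) : IsGlob (m.hess f) := (dC hf).cov m

end IsGlob

namespace Met

variable (m : Met n M)

theorem glob_met : IsGlob m.met :=
  ⟨fun x => SmT.met (m.isRiem x), fun x₀ x₁ => Rel.matT (m.pull_trans x₀ x₁)⟩

theorem glob_ric : IsGlob m.ric :=
  ⟨fun x => SmT.ricT (m.isRiem x), fun x₀ x₁ => Rel.ricT (m.pull_trans x₀ x₁)⟩

theorem glob_riem : IsGlob m.riem :=
  ⟨fun x => SmT.rmT (m.isRiem x), fun x₀ x₁ => Rel.rmT (m.pull_trans x₀ x₁)⟩







end Met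

end Crest.Agent.N207

end
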