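import Crest.Agent.N207.AI.Par2

/-!
# Row 207 (helper44): functions and tensor fields on `J × M`
-/

set_option autoImplicit false
set_option linter.style.haveILetI false
set_option linter.unusedSectionVars false

open scoped ContDiff Manifold Topology
open Set Filter Bundle
open Crest.GeometryTopology.CoordMetric Crest.GeometryTopology.ChartCurvature
  Crest.GeometryTopology.MetricFamily
open Crest.Agent.R247 Crest.Agent.R202.Tens

noncomputable section

namespace Crest.Agent.N207

variable {n k : ℕ} {M : Type*} [TopologicalSpace M] [ChartedSpace (En n) M]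
  [IsManifold 𝓘(ℝ, En n) ∞ M] {J : Set ℝ} {m : ℝ → Met n M}




theorem smST_const {f : M → ℝ} (hf : Sm n f) (J : Set ℝ) : SmST n (fun _ => f) J := fun x =>
  st_const (hf.inCh x)


namespace SmST

variable {u v : ℝ → M → ℝ}

theorem st (hu : SmST n u J) (x : M) : St (fun t => Bo84.inCh n x (u t)) J (tg n x) := hu x

theorem slice (hu : SmST n u J) {t : ℝ} (ht : t ∈ J) : Sm n (u t) :=
  sm_of_inCh fun x => st_slice (hu.st x) ht




theorem mono (hu : SmST n u J) {J' : Set ℝ} (h : J' ⊆ J) : SmST n u J' := fun x =>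
  (hu x).mono (prod_mono h Subset.rfl)

theorem congr (hu : SmST n u J) (h : ∀ t ∈ J, v t = u t) : SmST n v J := fun x =>
  (hu x).congr fun p hp => by rw [h p.1 hp.1]

theorem add (hu : SmST n u J) (hv : SmST n v J) : SmST n (fun t x => u t x + v t x) J :=
  fun x => (hu x).add (hv x)

theorem sub (hu : SmST n u J) (hv : SmST n v J) : SmST n (fun t x => u t x - v t x) J :=
  fun x => (hu x).sub (hv x)

theorem mul (hu : SmST n u J) (hv : SmST n v J) : SmST n (fun t x => u t x * v t x) J :=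
  fun x => (hu x).mul (hv x)

theorem neg (hu : SmST n u J) : SmST n (fun t x => -u t x) J := fun x => (hu x).neg

theorem const_mul (c : ℝ) (hu : SmST n u J) : SmST n (fun t x => c * u t x) J := fun x =>
  contDiffOn_const.mul (hu x)

theorem pow (hu : SmST n u J) (j : ℕ) : SmST n (fun t x => u t x ^ j) J := fun x => (hu x).pow j

theorem sum {ι : Type*} (s : Finset ι) {F : ι → ℝ → M → ℝ} (h : ∀ a ∈ s, SmST n (F a) J) :
    SmST n (fun t x => ∑ a ∈ s, F a t x) J := fun x => ContDiffOn.sum fun a ha => h a ha x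

theorem comp {φ : ℝ → ℝ} {W : Set ℝ} (hφ : ContDiffOn ℝ ∞ φ W) (hW : ∀ t ∈ J, ∀ x, u t x ∈ W)
    (hu : SmST n u J) : SmST n (fun t x => φ (u t x)) J := fun x =>
  hφ.comp (hu x) fun p hp => hW p.1 hp.1 _

/-- change of the time parameter -/
theorem comp_time {J' : Set ℝ} {τ : ℝ → ℝ} (hτ : ContDiffOn ℝ ∞ τ J') (hm : ∀ t ∈ J', τ t ∈ J)
    (hu : SmST n u J) : SmST n (fun t => u (τ t)) J' := fun x =>
  (hu x).comp ((hτ.comp contDiffOn_fst fun _ hp => hp.1).prodMk contDiffOn_snd)
    fun p hp => ⟨hm p.1 hp.1, hp.2⟩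

theorem dt (hJ : IsOpen J) (hu : SmST n u J) : SmST n (dt u) J := fun x =>
  st_deriv hJ (hu.st x)


theorem gam (hm : SmFam m J) (hu : SmST n u J) (hv : SmST n v J) :
    SmST n (fun t => (m t).gam (u t) (v t)) J := fun x =>
  ((hm.cfam x).st_gam (hu.st x) (hv.st x)).congr fun p hp => (m p.1).gam_chart _ _ hp.2

theorem lap (hm : SmFam m J) (hu : SmST n u J) : SmST n (fun t => (m t).lap (u t)) J := fun x =>
  ((hm.cfam x).st_lap (hu.st x)).congr fun p hp => (m p.1).lap_chart (hu.slice hp.1) hp.2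

end SmST


namespace GlobST

variable {S T : ℝ → CT n M k} {u : ℝ → M → ℝ}

theorem slice (hT : GlobST T J) {t : ℝ} (ht : t ∈ J) : IsGlob (T t) :=
  ⟨fun x => (hT.sm x).slice ht, hT.compat t ht⟩

theorem of_slice (h1 : ∀ x, SmTT (fun t => T t x) J (tg n x)) (h2 : ∀ t ∈ J, IsGlob (T t)) :
    GlobST T J := ⟨h1, fun t ht => (h2 t ht).compat⟩

theorem mono (hT : GlobST T J) {J' : Set ℝ} (h : J' ⊆ J) : GlobST T J' :=
  ⟨fun x => (hT.sm x).mono h Subset.rfl, fun t ht => hT.compat t (h ht)⟩

theorem congr (hT : GlobST T J) (h : ∀ t ∈ J, ∀ x, ∀ y ∈ tg n x, S t x y = T t x y) :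
    GlobST S J :=
  of_slice (fun x => (hT.sm x).congr fun t ht => h t ht x) fun t ht =>
    (hT.slice ht).congr (h t ht)

theorem add (hS : GlobST S J) (hT : GlobST T J) : GlobST (fun t => S t + T t) J :=
  ⟨fun x => (hS.sm x).add (hT.sm x), fun t ht => (hS.compat t ht).add (hT.compat t ht)⟩

theorem sub (hS : GlobST S J) (hT : GlobST T J) : GlobST (fun t => S t - T t) J :=
  ⟨fun x => (hS.sm x).sub (hT.sm x), fun t ht => (hS.compat t ht).sub (hT.compat t ht)⟩

theorem neg (hT : GlobST T J) : GlobST (fun t => -T t) J :=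
  ⟨fun x => (hT.sm x).neg, fun t ht => (hT.compat t ht).neg⟩

theorem smul (c : ℝ) (hT : GlobST T J) : GlobST (fun t => c • T t) J :=
  ⟨fun x => (hT.sm x).const_smul c, fun t ht => (hT.compat t ht).smul c⟩



theorem fnC (hu : SmST n u J) : GlobST (fun t => fnC n (u t)) J :=
  ⟨fun x => SmTT.fnT (hu.st x), fun _ _ => compat_fnC _⟩

theorem dC (hu : SmST n u J) : GlobST (fun t => dC n (u t)) J :=
  of_slice (fun x => SmTT.dT (isOpen_tg x) (hu.st x)) fun _ ht => IsGlob.dC (hu.slice ht)



variable (hm : SmFam m J)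
include hm

theorem cov (hT : GlobST T J) : GlobST (fun t => (m t).cov (T t)) J :=
  of_slice (fun x => (hT.sm x).cov (hm.cfam x)) fun t ht => (hT.slice ht).cov (m t)

theorem covN (hT : GlobST T J) (j : ℕ) : GlobST (fun t => (m t).covN (T t) j) J :=
  of_slice (fun x => (hT.sm x).covN (hm.cfam x) j) fun t ht => (hT.slice ht).covN (m t) j

theorem tr {T : ℝ → CT n M (k + 2)} (hT : GlobST T J) : GlobST (fun t => (m t).tr (T t)) J :=
  of_slice (fun x => (hT.sm x).trT (hm.cfam x)) fun t ht => (hT.slice ht).tr (m t)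

theorem div {T : ℝ → CT n M (k + 1)} (hT : GlobST T J) : GlobST (fun t => (m t).div (T t)) J :=
  (hT.cov hm).tr hm



theorem hess (hu : SmST n u J) : GlobST (fun t => (m t).hess (u t)) J := (dC hu).cov hm

theorem ip (hS : GlobST S J) (hT : GlobST T J) : SmST n (fun t => (m t).ip (S t) (T t)) J :=
  fun x => ((hm.cfam x).st_ip (hS.sm x) (hT.sm x)).congr fun p hp =>
    (m p.1).ip_chart (hS.compat p.1 hp.1) (hT.compat p.1 hp.1) hp.2

theorem nsq (hT : GlobST T J) : SmST n (fun t => (m t).nsq (T t)) J := hT.ip hm hT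

end GlobST

namespace SmFam

variable (hm : SmFam m J)
include hm

theorem met : GlobST (fun t => (m t).met) J :=
  ⟨fun x => (hm.cfam x).smTT_matT, fun t _ => (m t).glob_met.compat⟩

theorem ric : GlobST (fun t => (m t).ric) J :=
  ⟨fun x => (hm.cfam x).smTT_ricT, fun t _ => (m t).glob_ric.compat⟩

theorem riem : GlobST (fun t => (m t).riem) J :=
  ⟨fun x => (hm.cfam x).smTT_rmT, fun t _ => (m t).glob_riem.compat⟩

theorem scal : SmST n (fun t => (m t).scal) J := fun x =>
  (hm.cfam x).st_scal.congr fun p hp => (m p.1).scal_chart hp.2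

theorem rm (j : ℕ) : SmST n (fun t => (m t).rm j) J := (hm.riem.covN hm j).nsq hm

theorem rc (j : ℕ) : SmST n (fun t => (m t).rc j) J := (hm.ric.covN hm j).nsq hm

theorem pf : SmST n (fun t => (m t).pf) J :=
  ((hm.rm 0).sub ((hm.rc 0).const_mul 4)).add (hm.scal.pow 2)

theorem df {u : ℝ → M → ℝ} (hu : SmST n u J) (j : ℕ) : SmST n (fun t => (m t).df j (u t)) J :=
  ((GlobST.fnC hu).covN hm j).nsq hm



/-- change of the time parameter -/
theorem comp_time {J' : Set ℝ} {τ : ℝ → ℝ} (hτ : ContDiffOn ℝ ∞ τ J')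
    (hτJ : ∀ t ∈ J', τ t ∈ J) : SmFam (fun t => m (τ t)) J' := fun x i j =>
  (hm x i j).comp ((hτ.comp contDiffOn_fst fun _ hp => hp.1).prodMk contDiffOn_snd)
    fun p hp => ⟨hτJ p.1 hp.1, hp.2⟩

end SmFam

/-! ### time derivatives of tensor fields -/


section Time

variable {G G' : ℝ → MetricField n} {Φ : En n → En n} {V W : Set (En n)} {T T' : ℝ → Tn n k}
  {t : ℝ}




end Time


namespace GlobST

variable {T : ℝ → CT n M k} {t : ℝ}






variable {Ψ : En n → M} {U : Set (En n)} {y : En n}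




end GlobST





/-! ### product rules on `M` -/

namespace Met

variable (g : Met n M) {S T : CT n M k}







theorem cov_met {x : M} {y : En n} (hy : y ∈ tg n x) : g.cov g.met x y = 0 :=
  N207.cov_met (g.isRiem x) hy

end Met

end Crest.Agent.N207

end
namespace Crest.Agent.N207.Rel
end Crest.Agent.N207.Rel
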