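import Crest.Agent.N207.AI.Nat

/-!
# Row 207 (helper45): static pull-backs of coordinate flows; normalisation `G t 0 = 1`
-/

set_option autoImplicit false

open scoped ContDiff Topology
open Finset Function Filter
open Crest.GeometryTopology.CoordMetric Crest.GeometryTopology.ChartCurvature
  Crest.GeometryTopology.MetricFamily
open Crest.Agent.R202.Tens Crest.Agent.R247.Bo84

noncomputable section

namespace Crest.Agent.N207.AI

variable {n k : ℕ}

/-- the pull-back of a coordinate metric -/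
def plG (Φ : En n → En n) (G : MetricField n) : MetricField n := fun y => Matrix.of fun i j =>
  ∑ a, ∑ b, G (Φ y) a b * (fderiv ℝ Φ y (eb i)) a * (fderiv ℝ Φ y (eb j)) b

lemma pull_plG {G : MetricField n} {Φ : En n → En n} {V W : Set (En n)} (hV : IsOpen V)
    (hG : IsRiemannianOn G W) (hm : ∀ y ∈ V, Φ y ∈ W) (hΦ : ContDiffOn ℝ ∞ Φ V)
    (hi : ∀ y ∈ V, Injective (fderiv ℝ Φ y)) : Pull (plG Φ G) G Φ V W :=
  ⟨hV, hG, hm, hΦ, fun _ _ _ _ => rfl, hi⟩

variable {G G' : ℝ → MetricField n} {J : Set ℝ} {Φ : En n → En n} {U V W : Set (En n)}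

lemma cfam_riem (c : CFam G J U) {t : ℝ} (ht : t ∈ J) : IsRiemannianOn (G t) U :=
  ⟨c.isOpen, fun i j => (c.sm i j).comp (contDiffOn_const.prodMk contDiffOn_id)
    fun _ hy => ⟨ht, hy⟩, c.pos t ht⟩

theorem cfam_pull (c : CFam G J W) (hV : IsOpen V) (hp : ∀ t ∈ J, Pull (G' t) (G t) Φ V W) :
    CFam G' J V := by
  refine ⟨hV, fun i j q hq => ?_, fun t ht => (hp t ht).riem'.posDef⟩
  have p := hp q.1 hq.1
  have h1 : ∀ i a, ContDiffOn ℝ ∞ (fun r : ℝ × En n => (fderiv ℝ Φ r.2 (eb i)) a) (J ×ˢ V) :=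
    fun i a => contDiffOn_apply (((p.smooth.fderiv_of_isOpen hV (by simp)).clm_apply
      contDiffOn_const).comp contDiffOn_snd fun _ hr => hr.2) a
  have h2 : ∀ a b, ContDiffOn ℝ ∞ (fun r : ℝ × En n => G r.1 (Φ r.2) a b) (J ×ˢ V) :=
    fun a b => (c.sm a b).comp (contDiffOn_fst.prodMk (p.smooth.comp contDiffOn_snd
      fun _ hr => hr.2)) fun r hr => ⟨hr.1, p.maps _ hr.2⟩
  have h3 : ContDiffOn ℝ ∞ (fun r : ℝ × En n => ∑ a, ∑ b, G r.1 (Φ r.2) a b *
      (fderiv ℝ Φ r.2 (eb i)) a * (fderiv ℝ Φ r.2 (eb j)) b) (J ×ˢ V) :=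
    ContDiffOn.sum fun a _ => ContDiffOn.sum fun b _ => ((h2 a b).mul (h1 i a)).mul (h1 j b)
  exact (h3.congr fun r hr => (hp r.1 hr.1).pull r.2 hr.2 i j) q hq

theorem cflow_pull (c : CFlow G J W) (hV : IsOpen V) (hp : ∀ t ∈ J, Pull (G' t) (G t) Φ V W) :
    CFlow G' J V := by
  refine ⟨cfam_pull c.toCFam hV hp, c.isOpenJ, fun t ht y hy i j => ?_⟩
  have p := hp t ht
  have h1 := HasDerivAt.fun_sum (u := univ) fun a _ => HasDerivAt.fun_sum (u := univ) fun b _ =>
    ((c.rf t ht (Φ y) (p.maps y hy) a b).mul_const ((fderiv ℝ Φ y (eb i)) a)).mul_const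
      ((fderiv ℝ Φ y (eb j)) b)
  have h2 := p.ricci_pull hy (eb i) (eb j)
  have h3 : ∑ a, ∑ b, ricci (G' t) y a b * (eb i : En n) a * (eb j : En n) b =
      ricci (G' t) y i j := by
    have := evT_single (ricT (G' t) y) ![i, j]
    rw [evT_ricT] at this
    exact this
  rw [h3] at h2
  rw [h2]
  refine (h1.congr_of_eventuallyEq ?_).congr_deriv ?_
  · filter_upwards [c.isOpenJ.mem_nhds ht] with s hs using (hp s hs).pull y hy i j
  · simp only [mul_sum]
    exact sum_congr rfl fun a _ => sum_congr rfl fun b _ => by ring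







/-! ### locality in space-time -/




/-! ### normalisation -/

/-- the linear map sending the standard basis to `e` -/
def linE (e : Fin n → En n) : En n →L[ℝ] En n :=
  ∑ i, (EuclideanSpace.proj i : En n →L[ℝ] ℝ).smulRight (e i)

lemma linE_apply (e : Fin n → En n) (v : En n) : linE e v = ∑ i, v i • e i := by
  simp [linE]

lemma linE_eb (e : Fin n → En n) (i : Fin n) : linE e (eb i) = e i := by
  rw [linE_apply, sum_eq_single i]
  · simp
  · intro j _ hj
    simp [hj]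
  · simp

lemma linE_injective {A : Matrix (Fin n) (Fin n) ℝ} {e : Fin n → En n} (he : IsFrame A e) :
    Injective (linE e) := by
  rw [injective_iff_map_eq_zero]
  intro v hv
  ext j
  have h : bil A (linE e v) (e j) = v j := by
    rw [linE_apply, map_sum, _root_.sum_apply]
    simp [he.orth]
  rw [← h, hv]
  simp

/-- the affine map `z ↦ y + ∑ zᵢ eᵢ` -/
def aff (y : En n) (e : Fin n → En n) (z : En n) : En n := y + linE e z

lemma aff_zero (y : En n) (e : Fin n → En n) : aff y e 0 = y := by simp [aff]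

lemma contDiff_aff (y : En n) (e : Fin n → En n) : ContDiff ℝ ∞ (aff y e) :=
  contDiff_const.add (linE e).contDiff

lemma fderiv_aff (y : En n) (e : Fin n → En n) (z : En n) : fderiv ℝ (aff y e) z = linE e :=
  ((linE e).hasFDerivAt.const_add y).fderiv

lemma isOpen_aff (hU : IsOpen U) (y : En n) (e : Fin n → En n) : IsOpen (aff y e ⁻¹' U) :=
  hU.preimage (contDiff_aff y e).continuous

lemma pull_aff {g : MetricField n} (hg : IsRiemannianOn g U) {A : Matrix (Fin n) (Fin n) ℝ}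
    {e : Fin n → En n} (he : IsFrame A e) (y : En n) :
    Pull (plG (aff y e) g) g (aff y e) (aff y e ⁻¹' U) U :=
  pull_plG (isOpen_aff hg.isOpen y e) hg (fun _ hz => hz) (contDiff_aff y e).contDiffOn
    fun z _ => by rw [fderiv_aff]; exact linE_injective he

lemma plG_aff_zero {g : MetricField n} {y : En n} {e : Fin n → En n} (he : IsFrame (g y) e) :
    plG (aff y e) g 0 = 1 := by
  ext i j
  rw [plG, Matrix.of_apply, aff_zero, fderiv_aff, linE_eb, linE_eb, ← bil_apply, he.orth,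
    Matrix.one_apply]

/-- **static normalisation** -/
theorem exists_norm {g : MetricField n} (hg : IsRiemannianOn g U) {y : En n} (hy : y ∈ U) :
    ∃ (g' : MetricField n) (Φ : En n → En n) (V : Set (En n)), Pull g' g Φ V U ∧ 0 ∈ V ∧
      Φ 0 = y ∧ g' 0 = 1 := by
  obtain ⟨e, he⟩ := exists_frame hg hy
  refine ⟨_, _, _, pull_aff hg he y, ?_, aff_zero y e, plG_aff_zero he⟩
  rw [Set.mem_preimage, aff_zero]; exact hy

/-- **normalisation of a family** -/
theorem cfam_norm (c : CFam G J U) {t : ℝ} (ht : t ∈ J) {y : En n} (hy : y ∈ U) :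
    ∃ (G' : ℝ → MetricField n) (Φ : En n → En n) (V : Set (En n)), CFam G' J V ∧
      (∀ s ∈ J, Pull (G' s) (G s) Φ V U) ∧ 0 ∈ V ∧ Φ 0 = y ∧ G' t 0 = 1 := by
  obtain ⟨e, he⟩ := exists_frame (cfam_riem c ht) hy
  have hp : ∀ s ∈ J, Pull (plG (aff y e) (G s)) (G s) (aff y e) (aff y e ⁻¹' U) U :=
    fun s hs => pull_aff (cfam_riem c hs) he y
  refine ⟨_, _, _, cfam_pull c (isOpen_aff c.isOpen y e) hp, hp, ?_, aff_zero y e,
    plG_aff_zero he⟩
  rw [Set.mem_preimage, aff_zero]; exact hy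

/-- **normalisation of a flow** -/
theorem cflow_norm (c : CFlow G J U) {t : ℝ} (ht : t ∈ J) {y : En n} (hy : y ∈ U) :
    ∃ (G' : ℝ → MetricField n) (Φ : En n → En n) (V : Set (En n)), CFlow G' J V ∧
      (∀ s ∈ J, Pull (G' s) (G s) Φ V U) ∧ 0 ∈ V ∧ Φ 0 = y ∧ G' t 0 = 1 := by
  obtain ⟨G', Φ, V, c', hp, h⟩ := cfam_norm c.toCFam ht hy
  exact ⟨G', Φ, V, cflow_pull c c'.isOpen hp, hp, h⟩

end Crest.Agent.N207.AI

end
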