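import Crest.Agent.N207.A.Mk
import Crest.Agent.N207.AI.GlobT

/-!
# Row 207 (helper44): parametrisations are local isometries onto the charts

`Par.pull`: for a parametrisation `Ψ` and a chart `x`, `chartAt x ∘ Ψ` is a `Pull` from `m.pm Ψ` to
`m.G x`.  Consequences: `m.pm Ψ` is Riemannian, `CFam`, `CFlow`.
-/

set_option autoImplicit false
set_option linter.style.haveILetI false
set_option linter.unusedSectionVars false

open scoped ContDiff Manifold Topology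
open Set Filter Bundle
open Crest.GeometryTopology.CoordMetric Crest.GeometryTopology.ChartCurvature
  Crest.GeometryTopology.MetricFamily
open Crest.Agent.R247 Crest.Agent.R202.Tens

noncomputable section

namespace Crest.Agent.N207

variable {n k : ℕ} {M : Type*} [TopologicalSpace M] [ChartedSpace (En n) M]
  [IsManifold 𝓘(ℝ, En n) ∞ M]

theorem isOpen_tg (x : M) : IsOpen (tg n x) := (chartAt (En n) x).open_target

theorem ctr_mem (x : M) : ctr n x ∈ tg n x := mem_chart_target (En n) x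

theorem symm_ctr (x : M) : (chartAt (En n) x).symm (ctr n x) = x :=
  (chartAt (En n) x).left_inv (mem_chart_source (En n) x)

theorem inCh_ctr (f : M → ℝ) (x : M) : Bo84.inCh n x f (ctr n x) = f x := by
  rw [Bo84.inCh, symm_ctr]


theorem inCh_trans' (f : M → ℝ) {x₀ x₁ : M} {y : En n} (hy : y ∈ Bo84.tdom x₀ x₁) :
    Bo84.inCh n x₁ f (Bo84.trans x₀ x₁ y) = Bo84.inCh n x₀ f y := by
  rw [Bo84.inCh, Bo84.inCh, Bo84.symm_trans hy]

theorem inCh_trans (f : M → ℝ) {x₀ x₁ : M} {y : En n} (hy : y ∈ Bo84.tdom x₀ x₁) :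
    Bo84.inCh n x₀ f =ᶠ[𝓝 y] fun z => Bo84.inCh n x₁ f (Bo84.trans x₀ x₁ z) := by
  filter_upwards [(Bo84.isOpen_tdom x₀ x₁).mem_nhds hy] with z hz using (inCh_trans' f hz).symm

/-- a function read in a chart (no metric) -/
theorem contDiffAt_inCh {f : M → ℝ} {x : M} {y : En n} (hy : y ∈ tg n x)
    (hf : ContMDiffAt 𝓘(ℝ, En n) 𝓘(ℝ, ℝ) ∞ f ((chartAt (En n) x).symm y)) :
    ContDiffAt ℝ ∞ (Bo84.inCh n x f) y := by
  have h1 : ContMDiffAt 𝓘(ℝ, En n) 𝓘(ℝ, En n) ∞ (chartAt (En n) x).symm y :=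
    (contMDiffOn_chart_symm (I := 𝓘(ℝ, En n)) (n := ∞) (x := x)).contMDiffAt
      ((isOpen_tg x).mem_nhds hy)
  exact contMDiffAt_iff_contDiffAt.1 (hf.comp y h1)

theorem contMDiffAt_of_inCh {f : M → ℝ} {x p : M} (hp : p ∈ (chartAt (En n) x).source)
    (hf : ContDiffAt ℝ ∞ (Bo84.inCh n x f) (chartAt (En n) x p)) :
    ContMDiffAt 𝓘(ℝ, En n) 𝓘(ℝ, ℝ) ∞ f p := by
  have h1 : ContMDiffAt 𝓘(ℝ, En n) 𝓘(ℝ, En n) ∞ (chartAt (En n) x) p :=
    (contMDiffOn_chart (I := 𝓘(ℝ, En n)) (n := ∞) (x := x)).contMDiffAt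
      ((chartAt (En n) x).open_source.mem_nhds hp)
  have h2 : ContMDiffAt 𝓘(ℝ, En n) 𝓘(ℝ, ℝ) ∞ (Bo84.inCh n x f ∘ chartAt (En n) x) p :=
    (contMDiffAt_iff_contDiffAt.2 hf).comp p h1
  refine h2.congr_of_eventuallyEq ?_
  filter_upwards [(chartAt (En n) x).open_source.mem_nhds hp] with q hq
  simp only [Function.comp, Bo84.inCh, (chartAt (En n) x).left_inv hq]

theorem Sm.inCh {f : M → ℝ} (hf : Sm n f) (x : M) :
    ContDiffOn ℝ ∞ (Bo84.inCh n x f) (tg n x) := fun _ hy =>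
  (contDiffAt_inCh hy (hf _)).contDiffWithinAt

/-- a function which is smooth in every preferred chart is smooth -/
theorem sm_of_inCh {f : M → ℝ} (hf : ∀ x, ContDiffOn ℝ ∞ (Bo84.inCh n x f) (tg n x)) :
    Sm n f := fun x =>
  contMDiffAt_of_inCh (mem_chart_source (En n) x)
    ((hf x).contDiffAt ((isOpen_tg x).mem_nhds (ctr_mem x)))

namespace Met

variable (m : Met n M)

/-- the chart metric is Riemannian -/
theorem riem_G (x : M) : IsRiemannianOn (m.G x) (tg n x) := m.isRiem x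

/-- the metric read in a chart -/
theorem inner_eq_bil (x : M) {p : M} (hp : p ∈ (chartAt (En n) x).source) (v w : En n) :
    m.inner p v w =
      bil (m.G x (chartAt (En n) x p)) (Bo84.dCh x p v) (Bo84.dCh x p w) :=
  frm_eq_bil m.inner x hp v w

theorem pm_apply (Ψ : En n → M) (y : En n) (i j : Fin n) : m.pm Ψ y i j =
    m.inner (Ψ y) (mfderiv 𝓘(ℝ, En n) 𝓘(ℝ, En n) Ψ y (EuclideanSpace.single i 1))
      (mfderiv 𝓘(ℝ, En n) 𝓘(ℝ, En n) Ψ y (EuclideanSpace.single j 1)) := rfl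

/-- locality of the pull-back metric -/
theorem pm_congr {Ψ Ψ' : En n → M} {y : En n} (h : Ψ =ᶠ[𝓝 y] Ψ') : m.pm Ψ =ᶠ[𝓝 y] m.pm Ψ' := by
  filter_upwards [h.eventuallyEq_nhds] with z hz
  ext i j
  have h1 : Ψ z = Ψ' z := hz.eq_of_nhds
  have h2 : ∀ u : En n, (mfderiv 𝓘(ℝ, En n) 𝓘(ℝ, En n) Ψ z u : En n) =
      mfderiv 𝓘(ℝ, En n) 𝓘(ℝ, En n) Ψ' z u := fun u => by
    rw [hz.mfderiv_eq]; rfl
  have h3 : ∀ {p q : M} (_ : p = q) (v w : En n), m.inner p v w = m.inner q v w := by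
    intro p q h v w; subst h; rfl
  rw [pm_apply, pm_apply, ← h2, ← h2]
  exact h3 h1 _ _

end Met

namespace Par

variable {Ψ : En n → M} {U : Set (En n)} {y : En n}

/-- the inverse of a preferred chart is a parametrisation -/
theorem chart (x : M) : Par (chartAt (En n) x).symm (tg n x) :=
  ⟨isOpen_tg x, contMDiffOn_chart_symm, fun _ hy => Bo84.dSy_injective hy⟩

/-- the part of `U` seen by the chart at `x` -/
def dom (Ψ : En n → M) (U : Set (En n)) (x : M) : Set (En n) :=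
  U ∩ Ψ ⁻¹' (chartAt (En n) x).source

/-- the parametrisation read in the chart at `x` -/
def rd (Ψ : En n → M) (x : M) : En n → En n := fun z => chartAt (En n) x (Ψ z)



theorem mem_dom_self (hy : y ∈ U) : y ∈ dom Ψ U (Ψ y) := ⟨hy, mem_chart_source (En n) _⟩


theorem rd_mem {x : M} (hy : y ∈ dom Ψ U x) : rd Ψ x y ∈ tg n x :=
  (chartAt (En n) x).map_source hy.2

theorem symm_rd {x : M} (hy : y ∈ dom Ψ U x) : (chartAt (En n) x).symm (rd Ψ x y) = Ψ y :=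
  (chartAt (En n) x).left_inv hy.2

theorem inCh_rd (f : M → ℝ) {x : M} (hy : y ∈ dom Ψ U x) :
    Bo84.inCh n x f (rd Ψ x y) = f (Ψ y) := by
  rw [Bo84.inCh, symm_rd hy]

variable (hP : Par Ψ U)
include hP

theorem mono {V : Set (En n)} (hV : IsOpen V) (hVU : V ⊆ U) : Par Ψ V :=
  ⟨hV, hP.sm.mono hVU, fun y hy => hP.inj y (hVU hy)⟩

theorem contMDiffAt (hy : y ∈ U) : ContMDiffAt 𝓘(ℝ, En n) 𝓘(ℝ, En n) ∞ Ψ y :=
  hP.sm.contMDiffAt (hP.isOpen.mem_nhds hy)

theorem mdifferentiableAt (hy : y ∈ U) : MDifferentiableAt 𝓘(ℝ, En n) 𝓘(ℝ, En n) Ψ y :=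
  (hP.contMDiffAt hy).mdifferentiableAt (by simp)

theorem continuousOn : ContinuousOn Ψ U := hP.sm.continuousOn

theorem isOpen_dom (x : M) : IsOpen (dom Ψ U x) :=
  hP.continuousOn.isOpen_inter_preimage hP.isOpen (chartAt (En n) x).open_source

theorem dom_mem_nhds (hy : y ∈ U) : dom Ψ U (Ψ y) ∈ 𝓝 y :=
  (hP.isOpen_dom _).mem_nhds (mem_dom_self hy)

theorem comp_eventuallyEq (f : M → ℝ) {x : M} (hy : y ∈ dom Ψ U x) :
    (fun z => f (Ψ z)) =ᶠ[𝓝 y] fun z => Bo84.inCh n x f (rd Ψ x z) := by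
  filter_upwards [(hP.isOpen_dom x).mem_nhds hy] with z hz using (inCh_rd f hz).symm

theorem contDiffOn_rd (x : M) : ContDiffOn ℝ ∞ (rd Ψ x) (dom Ψ U x) := by
  rw [← contMDiffOn_iff_contDiffOn]
  have h2 : ContMDiffOn 𝓘(ℝ, En n) 𝓘(ℝ, En n) ∞ (chartAt (En n) x)
    (chartAt (En n) x).source := contMDiffOn_chart
  exact h2.comp (hP.sm.mono inter_subset_left) fun y hy => hy.2

theorem contDiffAt_rd {x : M} (hy : y ∈ dom Ψ U x) : ContDiffAt ℝ ∞ (rd Ψ x) y :=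
  (hP.contDiffOn_rd x).contDiffAt ((hP.isOpen_dom x).mem_nhds hy)

theorem fderiv_rd {x : M} (hy : y ∈ dom Ψ U x) (u : En n) :
    fderiv ℝ (rd Ψ x) y u =
      Bo84.dCh x (Ψ y) (mfderiv 𝓘(ℝ, En n) 𝓘(ℝ, En n) Ψ y u) := by
  have h2 : MDifferentiableAt 𝓘(ℝ, En n) 𝓘(ℝ, En n) (chartAt (En n) x) (Ψ y) :=
    (mdifferentiable_chart (I := 𝓘(ℝ, En n)) x).mdifferentiableAt hy.2
  have h3 := mfderiv_comp y h2 (hP.mdifferentiableAt hy.1)
  have h4 : fderiv ℝ (rd Ψ x) y =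
      mfderiv 𝓘(ℝ, En n) 𝓘(ℝ, En n) ((chartAt (En n) x) ∘ Ψ) y := by
    rw [mfderiv_eq_fderiv]; rfl
  rw [h4, h3]
  rfl

/-- a smooth function composed with a parametrisation -/
theorem contDiffOn_comp {f : M → ℝ} (hf : Sm n f) : ContDiffOn ℝ ∞ (fun z => f (Ψ z)) U := by
  rw [← contMDiffOn_iff_contDiffOn]
  exact hf.comp_contMDiffOn hP.sm

/-- **a parametrisation read in a chart is a local isometry** -/
theorem pull (m : Met n M) (x : M) :
    Pull (m.pm Ψ) (m.G x) (rd Ψ x) (dom Ψ U x) (tg n x) where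
  isOpen := hP.isOpen_dom x
  riem := m.riem_G x
  maps _ hy := rd_mem hy
  smooth := hP.contDiffOn_rd x
  pull y hy i j := by
    rw [← bil_apply, hP.fderiv_rd hy, hP.fderiv_rd hy]
    exact m.inner_eq_bil x hy.2 _ _
  inj y hy := by
    intro u v h
    rw [hP.fderiv_rd hy, hP.fderiv_rd hy] at h
    exact hP.inj y hy.1 (dCh_injective x hy.2 h)

/-- smoothness on `U` can be checked chart by chart -/
theorem contDiffOn_of_dom {F : Type*} [NormedAddCommGroup F] [NormedSpace ℝ F] {f : En n → F}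
    (h : ∀ x, ContDiffOn ℝ ∞ f (dom Ψ U x)) : ContDiffOn ℝ ∞ f U := fun _ hy =>
  ((h _).contDiffAt (hP.dom_mem_nhds hy)).contDiffWithinAt

theorem st_of_dom {f : ℝ → En n → ℝ} {J : Set ℝ} (h : ∀ x, St f J (dom Ψ U x)) : St f J U := by
  intro p hp
  refine (h (Ψ p.2) p ⟨hp.1, mem_dom_self hp.2⟩).mono_of_mem_nhdsWithin ?_
  have h1 : (Prod.snd ⁻¹' dom Ψ U (Ψ p.2) : Set (ℝ × En n)) ∈ 𝓝 p :=
    continuous_snd.continuousAt.preimage_mem_nhds (hP.dom_mem_nhds hp.2)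
  filter_upwards [self_mem_nhdsWithin, mem_nhdsWithin_of_mem_nhds h1] with q hq hq'
  exact ⟨hq.1, hq'⟩

/-- the pull-back metric is Riemannian -/
theorem riem (m : Met n M) : IsRiemannianOn (m.pm Ψ) U :=
  ⟨hP.isOpen, fun i j => hP.contDiffOn_of_dom fun x => (hP.pull m x).riem'.contDiffOn i j,
    fun y hy => (hP.pull m (Ψ y)).riem'.posDef y (mem_dom_self hy)⟩

/-- a jointly smooth function read in a parametrisation -/
theorem st_comp {u : ℝ → M → ℝ} {J : Set ℝ} (hu : SmST n u J) :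
    St (fun t z => u t (Ψ z)) J U := by
  refine hP.st_of_dom fun x => ?_
  have h1 := (hu x).comp (contDiffOn_fst.prodMk ((hP.contDiffOn_rd x).comp contDiffOn_snd
    fun p (hp : p ∈ J ×ˢ dom Ψ U x) => hp.2)) fun p hp => ⟨hp.1, rd_mem hp.2⟩
  exact h1.congr fun p hp => (inCh_rd (u p.1) hp.2).symm

/-- a smooth family of metrics read in a parametrisation -/
theorem cfam {m : ℝ → Met n M} {J : Set ℝ} (hm : SmFam m J) :
    CFam (fun t => (m t).pm Ψ) J U := by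
  refine ⟨hP.isOpen, fun i j => ?_, fun t _ y hy => (hP.riem (m t)).posDef y hy⟩
  refine hP.st_of_dom (f := fun t y => (m t).pm Ψ y i j) fun x => ?_
  have hd : ∀ i a, ContDiffOn ℝ ∞ (fun p : ℝ × En n =>
      (fderiv ℝ (rd Ψ x) p.2 (EuclideanSpace.single i 1)) a) (J ×ˢ dom Ψ U x) := by
    intro i a
    have h1 : ContDiffOn ℝ ∞
        (fun y => fderiv ℝ (rd Ψ x) y (EuclideanSpace.single i (1 : ℝ))) (dom Ψ U x) :=
      ((hP.contDiffOn_rd x).fderiv_of_isOpen (hP.isOpen_dom x) (by simp)).clm_apply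
        contDiffOn_const
    have h2 := (EuclideanSpace.proj a : En n →L[ℝ] ℝ).contDiff.comp_contDiffOn h1
    exact h2.comp contDiffOn_snd fun p hp => hp.2
  refine ContDiffOn.congr ?_ fun p hp => (hP.pull (m p.1) x).pull p.2 hp.2 i j
  refine ContDiffOn.sum fun a _ => ContDiffOn.sum fun b _ =>
    (ContDiffOn.mul ?_ (hd i a)).mul (hd j b)
  exact (hm x a b).comp (contDiffOn_fst.prodMk ((hP.contDiffOn_rd x).comp contDiffOn_snd
    fun p hp => hp.2)) fun p hp => ⟨hp.1, rd_mem hp.2⟩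

/-- the Ricci flow equation in a parametrisation -/
theorem rf {m : ℝ → Met n M} {J : Set ℝ} (hm : RFOn m J) {t : ℝ} (ht : t ∈ J) (hy : y ∈ U)
    (i j : Fin n) :
    HasDerivAt (fun s => (m s).pm Ψ y i j) (-2 * ricci ((m t).pm Ψ) y i j) t := by
  have hd := mem_dom_self (Ψ := Ψ) hy
  have h1 : (fun s => (m s).pm Ψ y i j) = fun s => ∑ a, ∑ b,
      (m s).G (Ψ y) (rd Ψ (Ψ y) y) a b *
        (fderiv ℝ (rd Ψ (Ψ y)) y (EuclideanSpace.single i 1)) a *
        (fderiv ℝ (rd Ψ (Ψ y)) y (EuclideanSpace.single j 1)) b :=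
    funext fun s => (hP.pull (m s) (Ψ y)).pull y hd i j
  have h2 := (hP.pull (m t) (Ψ y)).ricci_pull hd (EuclideanSpace.single i 1)
    (EuclideanSpace.single j 1)
  have h3 : ∑ a, ∑ b, ricci ((m t).pm Ψ) y a b * (EuclideanSpace.single i (1 : ℝ) : En n) a *
      (EuclideanSpace.single j (1 : ℝ) : En n) b = ricci ((m t).pm Ψ) y i j := by
    simp
  rw [h1, ← h3, h2, Finset.mul_sum]
  refine HasDerivAt.fun_sum fun a _ => ?_
  rw [Finset.mul_sum]
  refine HasDerivAt.fun_sum fun b _ => ?_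
  have h4 := ((hm (Ψ y) t ht _ (rd_mem hd) a b).mul_const
    ((fderiv ℝ (rd Ψ (Ψ y)) y (EuclideanSpace.single i 1)) a)).mul_const
    ((fderiv ℝ (rd Ψ (Ψ y)) y (EuclideanSpace.single j 1)) b)
  exact h4.congr_deriv (by ring)

/-- a Ricci flow on an open set of times read in a parametrisation -/
theorem cflow' {m : ℝ → Met n M} {J : Set ℝ} (hJ : IsOpen J) (hm : SmFam m J) (hr : RFOn m J) :
    CFlow (fun t => (m t).pm Ψ) J U :=
  ⟨hP.cfam hm, hJ, fun _ ht _ hy i j => hP.rf hr ht hy i j⟩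

end Par

theorem SmFam.mono' {m : ℝ → Met n M} {J J' : Set ℝ} (hm : SmFam m J) (h : J' ⊆ J) :
    SmFam m J' := fun x i j => (hm x i j).mono (prod_mono h Subset.rfl)

theorem RFOn.mono {m : ℝ → Met n M} {J J' : Set ℝ} (hm : RFOn m J) (h : J' ⊆ J) :
    RFOn m J' := fun x t ht => hm x t (h ht)

theorem SmFam.cfam {m : ℝ → Met n M} {J : Set ℝ} (hm : SmFam m J) (x : M) :
    CFam (fun t => (m t).G x) J (tg n x) :=
  ⟨isOpen_tg x, hm x, fun t _ y hy => ((m t).riem_G x).posDef y hy⟩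

theorem SmFam.cflow {m : ℝ → Met n M} {J : Set ℝ} (hJ : IsOpen J) (hm : SmFam m J)
    (hr : RFOn m J) (x : M) : CFlow (fun t => (m t).G x) J (tg n x) :=
  ⟨hm.cfam x, hJ, hr x⟩

theorem smFam_const (m : Met n M) (J : Set ℝ) : SmFam (fun _ => m) J := fun x i j =>
  st_const ((m.riem_G x).contDiffOn i j)

section Flow

variable {M : Type*} [TopologicalSpace M] [ChartedSpace E4 M] [IsManifold 𝓘(ℝ, E4) ∞ M]

theorem Flow.smo (F : Flow M) : SmFam F.m (Ioo 0 F.T) := F.sm.mono' Ioo_subset_Ico_self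

/-- a Ricci flow read in a preferred chart -/
theorem Flow.cflow (F : Flow M) (x : M) :
    CFlow (fun t => (F.m t).G x) (Ioo 0 F.T) (tg 4 x) := F.smo.cflow isOpen_Ioo F.rf x

/-- a Ricci flow read in a parametrisation -/
theorem Par.cflow {Ψ : E4 → M} {U : Set E4} (hP : Par Ψ U) (F : Flow M) :
    CFlow (fun t => (F.m t).pm Ψ) (Ioo 0 F.T) U := hP.cflow' isOpen_Ioo F.smo F.rf

end Flow

end Crest.Agent.N207

end
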